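import Mathlib
import Vale.Agent.P142.Mean

/-!
# Green's identity for a polynomial composed with a holomorphic map, with a cutoff

For `χ` of class `C^1`, the circle means of `χ (|H|^2) Re (conj (p H) (p H)' z) / 2` have as radial
derivative the means of `r` times `dens`, a function of `H` times the Jacobian `|H'|^2`.
-/

namespace Vale.Agent.P142K

open Complex Set MeasureTheory ComplexConjugate
open scoped Real

/-- The density on the image side. -/
noncomputable def dens (χ χ' : ℝ → ℝ) (p p' : ℂ → ℂ) (w : ℂ) : ℝ :=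
  χ (normSq w) * ‖p' w‖ ^ 2 + χ' (normSq w) * (w * (conj (p w) * p' w)).re

/-- The integrand of the flux through the circle of radius `r`. -/
noncomputable def flux (χ : ℝ → ℝ) (p p' H H' : ℂ → ℂ) (r θ : ℝ) : ℝ :=
  χ (normSq (H (P142.pt r θ))) *
    ((conj (p (H (P142.pt r θ))) * p' (H (P142.pt r θ))) *
      (P142.pt r θ * H' (P142.pt r θ))).re / 2

theorem hasDerivAt_normSq_comp {u : ℝ → ℂ} {u' : ℂ} {x : ℝ} (hu : HasDerivAt u u' x) :
    HasDerivAt (fun s => normSq (u s)) (2 * (conj (u x) * u').re) x := by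
  simpa [Complex.normSq_eq_norm_sq] using P142.hasDerivAt_normSq hu

theorem hasDerivAt_integral_interval {F G : ℝ → ℝ → ℝ} {a b : ℝ}
    (hF : ContinuousOn (fun p : ℝ × ℝ => F p.1 p.2) (Ioo a b ×ˢ univ))
    (hG : ContinuousOn (fun p : ℝ × ℝ => G p.1 p.2) (Ioo a b ×ˢ univ))
    (hd : ∀ r ∈ Ioo a b, ∀ θ, HasDerivAt (fun s => F s θ) (G r θ) r)
    {r : ℝ} (hr : r ∈ Ioo a b) :
    HasDerivAt (fun s => ∫ θ in (-π)..π, F s θ) (∫ θ in (-π)..π, G r θ) r := by
  set e := min (b - r) (r - a) / 2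
  have he : 0 < e := div_pos (lt_min (by linarith [hr.2]) (by linarith [hr.1])) two_pos
  have hsub : Icc (r - e) (r + e) ⊆ Ioo a b := fun x hx => by
    have h1 := min_le_left (b - r) (r - a)
    have h2 := min_le_right (b - r) (r - a)
    obtain ⟨ha, hb⟩ := hx
    simp only [e] at ha hb he
    exact ⟨by linarith, by linarith⟩
  have hK : IsCompact (Icc (r - e) (r + e) ×ˢ Icc (-π) π) := isCompact_Icc.prod isCompact_Icc
  obtain ⟨C, hC⟩ := hK.exists_bound_of_continuousOn (hG.mono fun p hp => ⟨hsub hp.1, mem_univ _⟩)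
  have hs : Icc (r - e) (r + e) ∈ nhds r := Icc_mem_nhds (by linarith) (by linarith)
  have slice : ∀ {H : ℝ → ℝ → ℝ}, ContinuousOn (fun p : ℝ × ℝ => H p.1 p.2) (Ioo a b ×ˢ univ) →
      ∀ s ∈ Ioo a b, Continuous (H s) := fun hH s hs =>
    hH.comp_continuous (continuous_const.prodMk continuous_id) fun θ => ⟨hs, mem_univ _⟩
  refine (intervalIntegral.hasDerivAt_integral_of_dominated_loc_of_deriv_le hs
    (bound := fun _ => C) ?_ ((slice hF r hr).intervalIntegrable _ _)
    (slice hG r hr).aestronglyMeasurable ?_ intervalIntegrable_const ?_).2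
  · filter_upwards [hs] with s hs using (slice hF s (hsub hs)).aestronglyMeasurable
  · refine ae_of_all _ fun θ hθ s hs => hC (s, θ) ⟨hs, ?_⟩
    rw [uIoc_of_le (by linarith [Real.pi_pos])] at hθ
    exact Ioc_subset_Icc_self hθ
  · exact ae_of_all _ fun θ _ s hs => hd s (hsub hs) θ

theorem continuous_dens {χ χ' : ℝ → ℝ} {p p' : ℂ → ℂ} (hχ : Continuous χ) (hχ' : Continuous χ')
    (hp : Continuous p) (hp' : Continuous p') : Continuous (dens χ χ' p p') := by
  unfold dens
  fun_prop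

/-- The radial derivative of the flux. -/
theorem hasDerivAt_flux {U : Set ℂ} (hU : IsOpen U) {a b : ℝ}
    (hsub : ∀ r ∈ Ioo a b, ∀ θ, P142.pt r θ ∈ U) {H : ℂ → ℂ} (hH : DifferentiableOn ℂ H U)
    {χ χ' : ℝ → ℝ} (hχ : ∀ x, HasDerivAt χ (χ' x) x) (hχ' : Continuous χ')
    {p p' p'' : ℂ → ℂ} (hp : ∀ w, HasDerivAt p (p' w) w) (hp' : ∀ w, HasDerivAt p' (p'' w) w)
    (hp'' : Continuous p'') {r : ℝ} (hr : r ∈ Ioo a b) :
    HasDerivAt (fun s => ∫ θ in (-π)..π, flux χ p p' H (deriv H) s θ)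
      (∫ θ in (-π)..π, r * (dens χ χ' p p' (H (P142.pt r θ)) * ‖deriv H (P142.pt r θ)‖ ^ 2))
      r := by
  set H' := deriv H with hH'
  set H'' := deriv H' with hH''
  set S : Set (ℝ × ℝ) := Ioo a b ×ˢ univ
  have h1 : ∀ z ∈ U, HasDerivAt H (H' z) z := fun z hz =>
    (hH.differentiableAt (hU.mem_nhds hz)).hasDerivAt
  have hH'd : DifferentiableOn ℂ H' U := hH.deriv hU
  have h2 : ∀ z ∈ U, HasDerivAt H' (H'' z) z := fun z hz =>
    (hH'd.differentiableAt (hU.mem_nhds hz)).hasDerivAt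
  have lift : ∀ {v : ℂ → ℂ}, ContinuousOn v U →
      ContinuousOn (fun q : ℝ × ℝ => v (P142.pt q.1 q.2)) S := fun hv =>
    hv.comp P142.continuous_pt.continuousOn fun q hq => hsub q.1 hq.1 q.2
  have c0 := lift hH.continuousOn
  have c1 := lift hH'd.continuousOn
  have c2 := lift (hH'd.deriv hU).continuousOn
  have k0 : Continuous p := continuous_iff_continuousAt.2 fun w => (hp w).continuousAt
  have k1 : Continuous p' := continuous_iff_continuousAt.2 fun w => (hp' w).continuousAt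
  have kχ : Continuous χ := continuous_iff_continuousAt.2 fun w => (hχ w).continuousAt
  have kn : Continuous fun w : ℂ => normSq w := Complex.continuous_normSq
  have cn : ContinuousOn (fun q : ℝ × ℝ => normSq (H (P142.pt q.1 q.2))) S :=
    kn.comp_continuousOn c0
  have cχ := kχ.comp_continuousOn cn
  have cχ' := hχ'.comp_continuousOn cn
  simp only [Function.comp_def] at cχ cχ'
  have kc := Complex.continuous_conj
  have kre := Complex.continuous_re
  have kim := Complex.continuous_im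
  have up : ∀ {v : ℂ × ℂ × ℂ × ℂ × ℂ → ℝ}, Continuous v → ContinuousOn (fun q : ℝ × ℝ =>
      v (P142.pt q.1 q.2, H (P142.pt q.1 q.2), H' (P142.pt q.1 q.2), H'' (P142.pt q.1 q.2),
        exp (q.2 * I))) S := fun hv =>
    hv.comp_continuousOn (P142.continuous_pt.continuousOn.prodMk (c0.prodMk (c1.prodMk
      (c2.prodMk (Continuous.continuousOn (by fun_prop))))))
  -- `G` is the radial derivative, `Y'` the angular derivative of the companion of the flux
  set A : ℝ → ℝ → ℂ := fun r θ => conj (p (H (P142.pt r θ))) * p' (H (P142.pt r θ)) with hA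
  set dA : ℝ → ℝ → ℂ → ℂ := fun r θ d => conj (p' (H (P142.pt r θ)) * d) * p' (H (P142.pt r θ)) +
    conj (p (H (P142.pt r θ))) * (p'' (H (P142.pt r θ)) * d) with hdA
  set e : ℝ → ℂ := fun θ => exp (θ * I) with he
  set n : ℝ → ℝ → ℝ := fun r θ => normSq (H (P142.pt r θ)) with hn
  set G : ℝ → ℝ → ℝ := fun r θ =>
    χ' (n r θ) * (2 * (conj (H (P142.pt r θ)) * (H' (P142.pt r θ) * e θ)).re) *
        (A r θ * (P142.pt r θ * H' (P142.pt r θ))).re / 2 +
      χ (n r θ) * (dA r θ (H' (P142.pt r θ) * e θ) * (P142.pt r θ * H' (P142.pt r θ)) +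
        A r θ * (e θ * H' (P142.pt r θ) + P142.pt r θ * (H'' (P142.pt r θ) * e θ))).re / 2
    with hG
  set Y : ℝ → ℝ → ℝ := fun r θ =>
    χ (n r θ) * (A r θ * (e θ * H' (P142.pt r θ))).im / 2 with hY
  set Y' : ℝ → ℝ → ℝ := fun r θ =>
    χ' (n r θ) * (2 * (conj (H (P142.pt r θ)) *
        (H' (P142.pt r θ) * (I * P142.pt r θ))).re) * (A r θ * (e θ * H' (P142.pt r θ))).im / 2 +
      χ (n r θ) * (dA r θ (H' (P142.pt r θ) * (I * P142.pt r θ)) * (e θ * H' (P142.pt r θ)) +
        A r θ * (I * e θ * H' (P142.pt r θ) +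
          e θ * (H'' (P142.pt r θ) * (I * P142.pt r θ)))).im / 2 with hY'
  have hGc : ContinuousOn (fun q : ℝ × ℝ => G q.1 q.2) S := by
    simp only [hG, hA, hdA, hn, he]
    exact up (v := fun x => χ' (normSq x.2.1) * (2 * (conj x.2.1 * (x.2.2.1 * x.2.2.2.2)).re) *
          ((conj (p x.2.1) * p' x.2.1) * (x.1 * x.2.2.1)).re / 2 +
        χ (normSq x.2.1) * ((conj (p' x.2.1 * (x.2.2.1 * x.2.2.2.2)) * p' x.2.1 +
            conj (p x.2.1) * (p'' x.2.1 * (x.2.2.1 * x.2.2.2.2))) * (x.1 * x.2.2.1) +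
          conj (p x.2.1) * p' x.2.1 * (x.2.2.2.2 * x.2.2.1 +
            x.1 * (x.2.2.2.1 * x.2.2.2.2))).re / 2) (by fun_prop)
  have hY'c : ContinuousOn (fun q : ℝ × ℝ => Y' q.1 q.2) S := by
    simp only [hY', hA, hdA, hn, he]
    exact up (v := fun x => χ' (normSq x.2.1) * (2 * (conj x.2.1 * (x.2.2.1 * (I * x.1))).re) *
          ((conj (p x.2.1) * p' x.2.1) * (x.2.2.2.2 * x.2.2.1)).im / 2 +
        χ (normSq x.2.1) * ((conj (p' x.2.1 * (x.2.2.1 * (I * x.1))) * p' x.2.1 +
            conj (p x.2.1) * (p'' x.2.1 * (x.2.2.1 * (I * x.1)))) * (x.2.2.2.2 * x.2.2.1) +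
          conj (p x.2.1) * p' x.2.1 * (I * x.2.2.2.2 * x.2.2.1 +
            x.2.2.2.2 * (x.2.2.2.1 * (I * x.1)))).im / 2) (by fun_prop)
  have hFc : ContinuousOn (fun q : ℝ × ℝ => flux χ p p' H H' q.1 q.2) S := by
    simp only [flux]
    exact up (v := fun x => χ (normSq x.2.1) *
      ((conj (p x.2.1) * p' x.2.1) * (x.1 * x.2.2.1)).re / 2) (by fun_prop)
  have hFd : ∀ r ∈ Ioo a b, ∀ θ, HasDerivAt (fun s => flux χ p p' H H' s θ) (G r θ) r := by
    intro r hr θ
    have hz := hsub r hr θ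
    have dH := P142.hasDerivAt_pt_left (h1 _ hz)
    have dH' := P142.hasDerivAt_pt_left (h2 _ hz)
    have dz := P142.hasDerivAt_pt_left (v := fun z => z) (hasDerivAt_id (P142.pt r θ))
    have dn := (hχ _).comp r (hasDerivAt_normSq_comp dH)
    have dA' := (((hp _).comp r dH).star.mul ((hp' _).comp r dH)).mul (dz.mul dH')
    have := (dn.mul (reCLM.hasFDerivAt.comp_hasDerivAt r dA')).div_const 2
    refine this.congr_deriv ?_
    simp only [hG, hA, hdA, hn, he, Function.comp, reCLM_apply, Pi.mul_apply, star_def, one_mul]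
    ring_nf
  have hYd : ∀ θ, HasDerivAt (Y r) (Y' r θ) θ := by
    intro θ
    have hz := hsub r hr θ
    have dH := P142.hasDerivAt_pt_right (h1 _ hz)
    have dH' := P142.hasDerivAt_pt_right (h2 _ hz)
    have de : HasDerivAt e (I * e θ) θ := by
      simpa [he, mul_comm] using ((hasDerivAt_id (θ : ℂ)).mul_const I).cexp.comp_ofReal
    have dn := (hχ _).comp θ (hasDerivAt_normSq_comp dH)
    have dA' := (((hp _).comp θ dH).star.mul ((hp' _).comp θ dH)).mul (de.mul dH')
    have := (dn.mul (imCLM.hasFDerivAt.comp_hasDerivAt θ dA')).div_const 2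
    refine this.congr_deriv ?_
    simp only [hY', hA, hdA, hn, Function.comp, imCLM_apply, Pi.mul_apply, star_def]
    ring_nf
  have slice : ∀ {F : ℝ → ℝ → ℝ}, ContinuousOn (fun q : ℝ × ℝ => F q.1 q.2) S → Continuous (F r) :=
    fun hF => hF.comp_continuous (continuous_const.prodMk continuous_id) fun θ => ⟨hr, mem_univ _⟩
  have hY0 : ∫ θ in (-π)..π, Y' r θ = 0 := by
    rw [intervalIntegral.integral_eq_sub_of_hasDerivAt (fun θ _ => hYd θ)
      ((slice hY'c).intervalIntegrable _ _), sub_eq_zero]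
    simp only [hY, hA, hn, he, P142.pt_periodic, exp_pi_mul_I, ofReal_neg, neg_mul,
      exp_neg_pi_mul_I]
  refine (hasDerivAt_integral_interval hFc hGc hFd hr).congr_deriv ?_
  rw [show ∫ θ in (-π)..π, G r θ = ∫ θ in (-π)..π, (G r θ - Y' r θ) by
    rw [intervalIntegral.integral_sub ((slice hGc).intervalIntegrable _ _)
      ((slice hY'c).intervalIntegrable _ _), hY0, sub_zero]]
  refine intervalIntegral.integral_congr fun θ _ => ?_
  simp only [hG, hY', hA, hdA, hn, dens, Complex.sq_norm]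
  have hpt : P142.pt r θ = r * e θ := rfl
  have he1 : normSq (e θ) = 1 := by
    rw [Complex.normSq_eq_norm_sq, he]; simp [Complex.norm_exp_ofReal_mul_I]
  simp only [hpt, normSq_apply] at he1 ⊢
  simp only [mul_re, mul_im, add_re, add_im, conj_re, conj_im, map_mul, I_re, I_im, ofReal_re,
    ofReal_im] at he1 ⊢
  grind

end Vale.Agent.P142K
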