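import Mathlib
import Vale.Agent.P142K.Stokes
import Vale.Agent.P142.Area

/-!
# The flux of a polynomial through an exterior univalent map is nonpositive

For `H z = h z / z` univalent on the punctured disc and an entire `p`, the flux of `p ∘ H` through
every circle about the origin is nonpositive.
-/

namespace Vale.Agent.P142K

open Complex Set Metric MeasureTheory Filter ComplexConjugate
open scoped Real Topology

/-- An integral over an open annulus, in polar coordinates. -/
theorem integral_annulus {r0 r1 : ℝ} (h0 : 0 ≤ r0) (h01 : r0 ≤ r1) {F : ℂ → ℝ}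
    (hF : ContinuousOn (fun q : ℝ × ℝ => q.1 * F (P142.pt q.1 q.2)) (Icc r0 r1 ×ˢ Icc (-π) π)) :
    ∫ z in {z : ℂ | r0 < ‖z‖ ∧ ‖z‖ < r1}, F z =
      ∫ r in r0..r1, ∫ θ in (-π)..π, r * F (P142.pt r θ) := by
  set A : Set ℂ := {z : ℂ | r0 < ‖z‖ ∧ ‖z‖ < r1}
  have hAm : MeasurableSet A :=
    ((isOpen_lt continuous_const continuous_norm).inter
      (isOpen_lt continuous_norm continuous_const)).measurableSet
  set S : Set (ℝ × ℝ) := Ioo r0 r1 ×ˢ Ioo (-π) π
  have hSm : MeasurableSet S := measurableSet_Ioo.prod measurableSet_Ioo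
  have hST : S ⊆ _root_.polarCoord.target :=
    Set.prod_mono (fun r hr => lt_of_le_of_lt h0 hr.1) subset_rfl
  rw [← integral_indicator hAm, ← Complex.integral_comp_polarCoord_symm]
  have e : ∀ p ∈ _root_.polarCoord.target, p.1 • A.indicator F (Complex.polarCoord.symm p) =
      S.indicator (fun p => p.1 * F (P142.pt p.1 p.2)) p := by
    rintro ⟨r, θ⟩ ⟨hr, hθ⟩
    have hpt : Complex.polarCoord.symm (r, θ) = P142.pt r θ := by
      rw [Complex.polarCoord_symm_apply, P142.pt, Complex.exp_mul_I, Complex.ofReal_cos,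
        Complex.ofReal_sin]
    rw [hpt]
    by_cases hm : r ∈ Ioo r0 r1
    · rw [indicator_of_mem (show (r, θ) ∈ S from ⟨hm, hθ⟩), indicator_of_mem, smul_eq_mul]
      simpa [A, P142.norm_pt, abs_of_pos (show (0 : ℝ) < r from hr)] using hm
    · rw [indicator_of_notMem (fun h : (r, θ) ∈ S => hm h.1), indicator_of_notMem, smul_zero]
      simpa [A, P142.norm_pt, abs_of_pos (show (0 : ℝ) < r from hr)] using hm
  rw [setIntegral_congr_fun _root_.polarCoord.open_target.measurableSet e,
    setIntegral_indicator hSm, inter_eq_right.2 hST, Measure.volume_eq_prod,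
    setIntegral_prod _ ?_]
  · rw [intervalIntegral.integral_of_le h01, integral_Ioc_eq_integral_Ioo]
    refine setIntegral_congr_fun measurableSet_Ioo fun r _ => ?_
    simp only
    rw [intervalIntegral.integral_of_le (by linarith [Real.pi_pos]), integral_Ioc_eq_integral_Ioo]
  · rw [← Measure.volume_eq_prod]
    exact (hF.integrableOn_compact (isCompact_Icc.prod isCompact_Icc)).mono_set
      (Set.prod_mono Ioo_subset_Icc_self Ioo_subset_Icc_self)

theorem continuousOn_intervalIntegral_param {F : ℝ → ℝ → ℝ} {s : Set ℝ}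
    (h : ContinuousOn (fun q : ℝ × ℝ => F q.1 q.2) (s ×ˢ univ)) :
    ContinuousOn (fun r => ∫ θ in (-π)..π, F r θ) s := by
  rw [continuousOn_iff_continuous_domRestrict]
  refine intervalIntegral.continuous_parametric_intervalIntegral_of_continuous' ?_ _ _
  exact h.comp_continuous (f := fun x : s × ℝ => ((x.1 : ℝ), x.2)) (by fun_prop)
    fun x => ⟨x.1.2, mem_univ _⟩

theorem integral_dens_image {U : Set ℂ} (hU : IsOpen U) {r0 r1 : ℝ} (h0 : 0 ≤ r0) (h01 : r0 ≤ r1)
    {a b : ℝ} (ha : a < r0) (hb : r1 < b) (hsub : ∀ r ∈ Ioo a b, ∀ θ, P142.pt r θ ∈ U)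
    {H : ℂ → ℂ} (hH : DifferentiableOn ℂ H U) (hinj : InjOn H U)
    {χ χ' : ℝ → ℝ} (hχ : ∀ x, HasDerivAt χ (χ' x) x) (hχ' : Continuous χ')
    {p p' p'' : ℂ → ℂ} (hp : ∀ w, HasDerivAt p (p' w) w) (hp' : ∀ w, HasDerivAt p' (p'' w) w)
    (hp'' : Continuous p'') :
    ∫ w in H '' {z : ℂ | r0 < ‖z‖ ∧ ‖z‖ < r1}, dens χ χ' p p' w =
      (∫ θ in (-π)..π, flux χ p p' H (deriv H) r1 θ) -
        ∫ θ in (-π)..π, flux χ p p' H (deriv H) r0 θ := by
  set A : Set ℂ := {z : ℂ | r0 < ‖z‖ ∧ ‖z‖ < r1}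
  have hAU : A ⊆ U := fun z hz => by
    have := hsub ‖z‖ ⟨lt_trans ha hz.1, lt_trans hz.2 hb⟩ (Complex.arg z)
    rwa [P142.pt, Complex.norm_mul_exp_arg_mul_I] at this
  have hAm : MeasurableSet A :=
    ((isOpen_lt continuous_const continuous_norm).inter
      (isOpen_lt continuous_norm continuous_const)).measurableSet
  have hd : ∀ z ∈ A, HasFDerivWithinAt H
      ((ContinuousLinearMap.toSpanSingleton ℂ (deriv H z)).restrictScalars ℝ) A z := fun z hz =>
    ((hH.differentiableAt (hU.mem_nhds (hAU hz))).hasDerivAt.hasFDerivAt.restrictScalars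
      ℝ).hasFDerivWithinAt
  rw [integral_image_eq_integral_abs_det_fderiv_smul volume hAm hd (hinj.mono hAU)]
  simp only [smul_eq_mul, P142.abs_det_smulRight]
  have kp : Continuous p := continuous_iff_continuousAt.2 fun w => (hp w).continuousAt
  have kp' : Continuous p' := continuous_iff_continuousAt.2 fun w => (hp' w).continuousAt
  have kχ : Continuous χ := continuous_iff_continuousAt.2 fun w => (hχ w).continuousAt
  have lift : ∀ {v : ℂ → ℂ}, ContinuousOn v U →
      ContinuousOn (fun q : ℝ × ℝ => v (P142.pt q.1 q.2)) (Ioo a b ×ˢ univ) := fun hv =>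
    hv.comp P142.continuous_pt.continuousOn fun q hq => hsub q.1 hq.1 q.2
  have hc : ContinuousOn (fun q : ℝ × ℝ => q.1 * (‖deriv H (P142.pt q.1 q.2)‖ ^ 2 *
      dens χ χ' p p' (H (P142.pt q.1 q.2)))) (Ioo a b ×ˢ univ) :=
    continuousOn_fst.mul (((lift (hH.deriv hU).continuousOn).norm.pow 2).mul
      ((continuous_dens kχ hχ' kp kp').comp_continuousOn (lift hH.continuousOn)))
  rw [integral_annulus h0 h01 (hc.mono (Set.prod_mono
    (Icc_subset_Ioo ha hb) (subset_univ _)))]
  have hd' : ∀ r ∈ uIcc r0 r1, HasDerivAt (fun s => ∫ θ in (-π)..π, flux χ p p' H (deriv H) s θ)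
      (∫ θ in (-π)..π, r * (‖deriv H (P142.pt r θ)‖ ^ 2 * dens χ χ' p p' (H (P142.pt r θ)))) r := by
    intro r hr
    rw [uIcc_of_le h01] at hr
    simpa only [mul_comm (‖deriv H _‖ ^ 2)] using
      hasDerivAt_flux hU hsub hH hχ hχ' hp hp' hp'' (Icc_subset_Ioo ha hb hr)
  refine intervalIntegral.integral_eq_sub_of_hasDerivAt hd' ?_
  refine ContinuousOn.intervalIntegrable ?_
  rw [uIcc_of_le h01]
  refine continuousOn_intervalIntegral_param (hc.mono (Set.prod_mono (Icc_subset_Ioo ha hb) subset_rfl))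

/-- The flux through a circle is nonpositive. -/
theorem flux_nonpos {h : ℂ → ℂ} (hh : DifferentiableOn ℂ h (ball 0 1)) (h0 : h 0 = 1)
    (hne : ∀ z ∈ ball (0 : ℂ) 1, h z ≠ 0)
    (hinj : InjOn (fun z => h z / z) (ball 0 1 \ {0}))
    {p p' p'' : ℂ → ℂ} (hp : ∀ w, HasDerivAt p (p' w) w) (hp' : ∀ w, HasDerivAt p' (p'' w) w)
    (hp'' : Continuous p'') {ρ : ℝ} (hρ : ρ ∈ Ioo (0 : ℝ) 1) :
    ∫ θ in (-π)..π, flux (fun _ => 1) p p' (fun z => h z / z) (deriv fun z => h z / z) ρ θ ≤ 0 := by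
  set H : ℂ → ℂ := fun z => h z / z
  set U : Set ℂ := ball 0 1 \ {0}
  have hU : IsOpen U := isOpen_ball.sdiff isClosed_singleton
  have hH : DifferentiableOn ℂ H U :=
    (hh.mono sdiff_subset).div differentiableOn_id fun z hz => by simpa using hz.2
  have hptU : ∀ r ∈ Ioo (0 : ℝ) 1, ∀ θ, P142.pt r θ ∈ U := fun r hr θ => by
    refine ⟨P142.pt_mem (by rw [abs_of_pos hr.1]; exact hr.2) θ, ?_⟩
    simp [P142.pt, hr.1.ne']
  -- the image of a small punctured disc is a neighbourhood of infinity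
  obtain ⟨δ, hδ, hδsub⟩ : ∃ δ > 0, ball (0 : ℂ) δ ⊆ (fun z => z / h z) '' ball 0 ρ := by
    have hd : DifferentiableOn ℂ (fun z => z / h z) (ball 0 1) := differentiableOn_id.div hh hne
    have hs := (hd.analyticAt (ball_mem_nhds (0 : ℂ) one_pos)).hasStrictDerivAt
    have hd1 : deriv (fun z => z / h z) 0 = 1 := by
      have hh0 := (hh.differentiableAt (ball_mem_nhds (0 : ℂ) one_pos)).hasDerivAt
      exact ((hasDerivAt_id (0 : ℂ)).div hh0 (hne 0 (mem_ball_self one_pos))).deriv.trans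
        (by simp [h0])
    have hmap := hs.map_nhds_eq (by rw [hd1]; exact one_ne_zero)
    simp only [zero_div] at hmap
    exact Metric.mem_nhds_iff.1 (hmap ▸ image_mem_map (ball_mem_nhds (0 : ℂ) hρ.1))
  -- the threshold
  obtain ⟨B, hB⟩ := (isCompact_sphere (0 : ℂ) ρ).exists_bound_of_continuousOn (f := H)
    (hH.continuousOn.mono fun z hz => by
      have hz' : ‖z‖ = ρ := by simpa using hz
      exact ⟨by simp [hz', hρ.2], by
        simp only [mem_singleton_iff]
        rintro rfl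
        simp at hz'; linarith [hρ.1]⟩)
  set T : ℝ := max (B ^ 2 + 1) (1 / δ ^ 2 + 1)
  obtain ⟨r1, hr1, hbig⟩ : ∃ r1 ∈ Ioo (0 : ℝ) ρ,
      ∀ z : ℂ, z ≠ 0 → ‖z‖ ≤ r1 → T + 1 < normSq (H z) := by
    have hcont : ContinuousAt h 0 :=
      hh.continuousOn.continuousAt (ball_mem_nhds (0 : ℂ) one_pos)
    obtain ⟨d, hd, hdh⟩ := Metric.continuousAt_iff.1 hcont (1 / 2) (by norm_num)
    have hT : 0 < T + 2 := by
      have := le_max_left (B ^ 2 + 1) (1 / δ ^ 2 + 1)
      nlinarith [sq_nonneg B]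
    have hm : 0 < min (min (d / 2) (ρ / 2)) (1 / (2 * (T + 2))) :=
      lt_min (lt_min (half_pos hd) (half_pos hρ.1)) (by positivity)
    refine ⟨_, ⟨hm, lt_of_le_of_lt ((min_le_left _ _).trans (min_le_right _ _))
      (half_lt_self hρ.1)⟩, fun z hz0 hz => ?_⟩
    have hz1 : ‖z‖ < d := lt_of_le_of_lt (hz.trans ((min_le_left _ _).trans (min_le_left _ _)))
      (half_lt_self hd)
    have hz2 : ‖z‖ * (2 * (T + 2)) ≤ 1 := by
      rw [← le_div_iff₀ (by positivity)]
      exact hz.trans (min_le_right _ _)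
    have hh2 := hdh (by rwa [dist_zero_right])
    rw [h0, dist_eq_norm] at hh2
    have hhz : 1 / 2 ≤ ‖h z‖ := by
      have := norm_sub_norm_le (1 : ℂ) (h z)
      rw [norm_one, norm_sub_rev] at this
      linarith
    have hzp : 0 < ‖z‖ := norm_pos_iff.2 hz0
    have hge : T + 2 ≤ ‖H z‖ := by
      rw [norm_div, le_div_iff₀ hzp]
      nlinarith
    rw [Complex.normSq_eq_norm_sq]
    nlinarith
  set χ : ℝ → ℝ := fun x => Real.smoothTransition (T + 1 - x)
  set χ' := deriv χ
  have hcd : ContDiff ℝ 1 χ :=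
    (Real.smoothTransition.contDiff).comp (contDiff_const.sub contDiff_id)
  have hχ : ∀ x, HasDerivAt χ (χ' x) x := fun x =>
    (hcd.differentiable one_ne_zero x).hasDerivAt
  have hχ' : Continuous χ' := hcd.continuous_deriv le_rfl
  have hχ1 : ∀ x ≤ T, χ x = 1 := fun x hx =>
    Real.smoothTransition.one_of_one_le (by linarith)
  have hχ0 : ∀ x, T + 1 ≤ x → χ x = 0 := fun x hx =>
    Real.smoothTransition.zero_of_nonpos (by linarith)
  have hχn : ∀ x, 0 ≤ χ x := fun x => Real.smoothTransition.nonneg _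
  have hsupp : ∀ x, x < T ∨ T + 1 < x → χ' x = 0 := by
    rintro x (hx | hx)
    · exact ((hasDerivAt_const x (1 : ℝ)).congr_of_eventuallyEq
        ((eventually_lt_nhds hx).mono fun y hy => hχ1 y hy.le)).deriv
    · exact ((hasDerivAt_const x (0 : ℝ)).congr_of_eventuallyEq
        ((eventually_gt_nhds hx).mono fun y hy => hχ0 y hy.le)).deriv
  set A : Set ℂ := {z : ℂ | r1 < ‖z‖ ∧ ‖z‖ < ρ}
  have hAU : A ⊆ U := fun z hz => ⟨mem_ball_zero_iff.2 (lt_trans hz.2 hρ.2), by
    simp only [mem_singleton_iff]; rintro rfl; have := hz.1; simp at this; linarith [hr1.1]⟩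
  have himg : ∀ w : ℂ, w ∉ H '' A → dens χ χ' p p' w = χ (normSq w) * ‖p' w‖ ^ 2 := by
    intro w hw
    rw [dens, add_eq_left]
    by_cases hx : normSq w < T ∨ T + 1 < normSq w
    · rw [hsupp _ hx, zero_mul]
    exfalso
    push Not at hx
    refine hw ?_
    have hT1 := le_max_right (B ^ 2 + 1) (1 / δ ^ 2 + 1)
    have hw0 : w ≠ 0 := by
      rintro rfl
      simp at hx
      have : (0 : ℝ) < 1 / δ ^ 2 := by positivity
      linarith
    have hwδ : w⁻¹ ∈ ball (0 : ℂ) δ := by
      rw [mem_ball_zero_iff, norm_inv, inv_lt_iff_one_lt_mul₀ (norm_pos_iff.2 hw0)]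
      have h1 : 1 / δ ^ 2 < ‖w‖ ^ 2 := by
        rw [← Complex.normSq_eq_norm_sq]; linarith [hx.1]
      rw [div_lt_iff₀ (by positivity)] at h1
      nlinarith [norm_nonneg w, mul_nonneg (norm_nonneg w) hδ.le]
    obtain ⟨z, hz, hze⟩ := hδsub hwδ
    have hz0 : z ≠ 0 := by
      rintro rfl
      simp at hze
      exact hw0 (by simpa using hze.symm)
    have hHz : H z = w := by
      have : (z / h z)⁻¹ = w := by rw [show z / h z = w⁻¹ from hze, inv_inv]
      rw [inv_div] at this
      exact this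
    refine ⟨z, ⟨?_, mem_ball_zero_iff.1 hz⟩, hHz⟩
    by_contra hle
    have := hbig z hz0 (not_lt.1 hle)
    rw [hHz] at this
    linarith [hx.2]
  -- the whole plane
  have kp : Continuous p := continuous_iff_continuousAt.2 fun w => (hp w).continuousAt
  have kp' : Continuous p' := continuous_iff_continuousAt.2 fun w => (hp' w).continuousAt
  have kd := continuous_dens (p := p) hcd.continuous hχ' kp kp'
  have hout : ∀ w : ℂ, T + 1 < normSq w → dens χ χ' p p' w = 0 := fun w hw => by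
    rw [dens, hχ0 _ hw.le, hsupp _ (Or.inr hw)]; ring
  have hTpos : 0 < T + 1 := by
    have := le_max_left (B ^ 2 + 1) (1 / δ ^ 2 + 1)
    nlinarith [sq_nonneg B]
  set R : ℝ := T + 2
  have hR : ∀ w : ℂ, R ≤ ‖w‖ → T + 1 < normSq w := fun w hw => by
    rw [Complex.normSq_eq_norm_sq]; nlinarith
  have hcs : HasCompactSupport (dens χ χ' p p') :=
    HasCompactSupport.intro (isCompact_closedBall (0 : ℂ) R) fun w hw => hout w (hR w (by
      simp only [mem_closedBall_zero_iff, not_le] at hw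
      exact hw.le))
  have hint : Integrable (dens χ χ' p p') := kd.integrable_of_hasCompactSupport hcs
  have htot : ∫ w, dens χ χ' p p' w = 0 := by
    have h1 := integral_dens_image (U := univ) isOpen_univ (r0 := 0) (r1 := R) le_rfl (by linarith)
      (a := -1) (b := R + 1) (by norm_num) (by linarith) (fun _ _ _ => mem_univ _)
      differentiableOn_id (injOn_id univ) hχ hχ' hp hp' hp''
    rw [image_id] at h1
    have h2 : ∀ θ, flux χ p p' id (deriv id) R θ = 0 := fun θ => by
      simp only [flux, id]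
      rw [hχ0 _ (hR _ (by rw [P142.norm_pt, abs_of_pos (by linarith : (0 : ℝ) < R)])).le]
      ring
    have h3 : ∀ θ, flux χ p p' id (deriv id) 0 θ = 0 := fun θ => by simp [flux, P142.pt]
    simp only [h2, h3, intervalIntegral.integral_zero, sub_zero] at h1
    rw [← h1]
    refine (setIntegral_eq_integral_of_ae_compl_eq_zero ?_).symm
    filter_upwards [compl_mem_ae_iff.2 (measure_singleton (0 : ℂ))] with w hw0 hw
    refine hout w (hR w ?_)
    by_contra hlt
    exact hw ⟨norm_pos_iff.2 hw0, not_le.1 hlt⟩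
  have hAm : MeasurableSet (H '' A) := by
    refine MeasurableSet.image_of_continuousOn_injOn ?_ (hH.continuousOn.mono hAU) (hinj.mono hAU)
    exact ((isOpen_lt continuous_const continuous_norm).inter
      (isOpen_lt continuous_norm continuous_const)).measurableSet
  have h4 : ∫ w in H '' A, dens χ χ' p p' w ≤ 0 := by
    have h5 := integral_add_compl hAm hint
    rw [htot] at h5
    have h6 : 0 ≤ ∫ w in (H '' A)ᶜ, dens χ χ' p p' w :=
      setIntegral_nonneg hAm.compl fun w hw => by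
        rw [himg w hw]; exact mul_nonneg (hχn _) (sq_nonneg _)
    linarith
  have h7 := integral_dens_image hU (r0 := r1) (r1 := ρ) hr1.1.le hr1.2.le (a := 0) (b := 1)
    hr1.1 hρ.2 hptU hH hinj hχ hχ' hp hp' hp''
  rw [h7] at h4
  have h8 : ∀ θ, flux χ p p' H (deriv H) r1 θ = 0 := fun θ => by
    simp only [flux]
    rw [hχ0 _ (hbig _ (by simp [P142.pt, hr1.1.ne'])
      (by rw [P142.norm_pt, abs_of_pos hr1.1])).le]
    ring
  have h9 : ∀ θ, flux χ p p' H (deriv H) ρ θ = flux (fun _ => 1) p p' H (deriv H) ρ θ := fun θ => by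
    simp only [flux]
    rw [hχ1]
    have := hB (P142.pt ρ θ) (by simp [P142.norm_pt, abs_of_pos hρ.1])
    rw [Complex.normSq_eq_norm_sq]
    have := pow_le_pow_left₀ (norm_nonneg _) this 2
    linarith [le_max_left (B ^ 2 + 1) (1 / δ ^ 2 + 1)]
  simpa [h8, h9] using h4

end Vale.Agent.P142K
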