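import Mathlib
import Vale.Agent.P142J.AreaTheorem
import Vale.Agent.P142K.Flux

/-!
# The area inequality for a cubic polynomial of an exterior univalent map
-/

namespace Vale.Agent.P142K

open Complex Set Metric MeasureTheory Filter ComplexConjugate Finset
open scoped Real Topology
open Vale.Agent.P142J (Jet)

/-- The coefficients of a product. -/
def conv (a b : ℕ → ℂ) (k : ℕ) : ℂ := ∑ i ∈ range (k + 1), a i * b (k - i)

theorem jet_congr {p u : ℂ → ℂ} {a : ℕ → ℂ} {N : ℕ} (h : Jet p a N)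
    (he : EqOn u p (ball 0 1)) : Jet u a N := by
  obtain ⟨q, hq, hp⟩ := h
  exact ⟨q, hq, fun z hz => (he hz).trans (hp z hz)⟩

theorem jet_add {p u : ℂ → ℂ} {a b : ℕ → ℂ} {N : ℕ} (h : Jet p a N) (h' : Jet u b N) :
    Jet (fun z => p z + u z) (fun k => a k + b k) N := by
  obtain ⟨q, hq, hp⟩ := h
  obtain ⟨r, hr, hu⟩ := h'
  refine ⟨fun z => q z + r z, hq.add hr, fun z hz => ?_⟩
  simp only [hp z hz, hu z hz, add_mul, sum_add_distrib]
  ring

theorem jet_smul {p : ℂ → ℂ} {a : ℕ → ℂ} {N : ℕ} (c : ℂ) (h : Jet p a N) :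
    Jet (fun z => c * p z) (fun k => c * a k) N := by
  obtain ⟨q, hq, hp⟩ := h
  refine ⟨fun z => c * q z, hq.const_mul c, fun z hz => ?_⟩
  simp only [hp z hz, mul_add, mul_sum]
  congr 1
  · exact sum_congr rfl fun k _ => by ring
  · ring

theorem jet_pred {p : ℂ → ℂ} {a : ℕ → ℂ} {N : ℕ} (h : Jet p a (N + 1)) : Jet p a N := by
  obtain ⟨q, hq, hp⟩ := h
  refine ⟨fun z => a N + z * q z, by fun_prop, fun z hz => ?_⟩
  rw [hp z hz, sum_range_succ]
  ring

theorem jet_id_mul {p : ℂ → ℂ} {a : ℕ → ℂ} {N : ℕ} (h : Jet p a N) :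
    Jet (fun z => z * p z) (fun k => if k = 0 then 0 else a (k - 1)) (N + 1) := by
  obtain ⟨q, hq, hp⟩ := h
  refine ⟨q, hq, fun z hz => ?_⟩
  simp only [hp z hz, sum_range_succ', Nat.add_sub_cancel, Nat.succ_ne_zero, if_false, if_true,
    zero_mul, add_zero, mul_add, mul_sum]
  congr 1
  · exact sum_congr rfl fun k _ => by ring
  · ring

theorem jet_mul : ∀ {N : ℕ} {p u : ℂ → ℂ} {a b : ℕ → ℂ}, Jet p a N → Jet u b N →
    Jet (fun z => p z * u z) (conv a b) N
  | 0, p, u, a, b, h, h' => by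
    have h1 := h.differentiableOn
    have h2 := h'.differentiableOn
    exact ⟨fun z => p z * u z, h1.mul h2, fun z _ => by simp⟩
  | N + 1, p, u, a, b, h, h' => by
    obtain ⟨q, hq, hj, he⟩ := h.shift
    obtain ⟨r, hr, hs⟩ := jet_add (jet_smul (a 0) h') (jet_id_mul (jet_mul hj (jet_pred h')))
    refine ⟨r, hr, fun z hz => ?_⟩
    have h1 := hs z hz
    simp only at h1 ⊢
    rw [he z hz, show (a 0 + z * q z) * u z = a 0 * u z + z * (q z * u z) by ring, h1]
    congr 1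
    refine sum_congr rfl fun k _ => ?_
    rcases k with - | k
    · simp [conv]
    · simp only [conv, Nat.succ_ne_zero, if_false, Nat.add_sub_cancel, sum_range_succ' _ (k + 1),
        Nat.add_sub_add_right, tsub_zero]
      ring

theorem J_eq_shift {N : ℕ} {p : ℂ → ℂ} {d : ℕ → ℂ} (h : Jet p d (N + 1)) :
    ∃ q : ℂ → ℂ, Jet q (fun k => d (k + 1)) N ∧ ∀ s ∈ Ico (0 : ℝ) 1,
      P142.J p s = 2 * π * ‖d 0‖ ^ 2 + s ^ 2 * P142.J q s := by
  obtain ⟨q, hq, hj, he⟩ := h.shift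
  refine ⟨q, hj, fun s hs => ?_⟩
  have hab : |s| < 1 := by rw [abs_of_nonneg hs.1]; exact hs.2
  have hpt : ∀ θ, circleMap 0 s θ = P142.pt s θ := fun θ => by simp [circleMap, P142.pt]
  have cq : Continuous fun θ => q (P142.pt s θ) :=
    hq.continuousOn.comp_continuous (by unfold P142.pt; fun_prop) fun θ => P142.pt_mem hab θ
  have cz : Continuous fun θ => P142.pt s θ := by unfold P142.pt; fun_prop
  have e : ∀ θ : ℝ, ‖p (P142.pt s θ)‖ ^ 2 = (‖d 0‖ ^ 2 +
      2 * (conj (d 0) * (P142.pt s θ * q (P142.pt s θ))).re) + s ^ 2 * ‖q (P142.pt s θ)‖ ^ 2 := by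
    intro θ
    have hn : ‖P142.pt s θ * q (P142.pt s θ)‖ ^ 2 = s ^ 2 * ‖q (P142.pt s θ)‖ ^ 2 := by
      rw [norm_mul, P142.norm_pt, abs_of_nonneg hs.1, mul_pow]
    rw [he _ (P142.pt_mem hab θ), ← hn]
    generalize P142.pt s θ * q (P142.pt s θ) = w
    simp only [← Complex.normSq_eq_norm_sq, Complex.normSq_apply, Complex.add_re,
      Complex.add_im, Complex.mul_re, Complex.conj_re, Complex.conj_im]
    ring
  have h0 := P142J.integral_re_conj_mul_eq_zero hq hs.1 hs.2 (d 0)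
  simp only [hpt] at h0
  have cw : Continuous fun θ => 2 * (conj (d 0) * (P142.pt s θ * q (P142.pt s θ))).re :=
    continuous_const.mul (Complex.continuous_re.comp (continuous_const.mul (cz.mul cq)))
  have c2 : Continuous fun θ => s ^ 2 * ‖q (P142.pt s θ)‖ ^ 2 :=
    continuous_const.mul (cq.norm.pow 2)
  have c1 : Continuous fun θ => ‖d 0‖ ^ 2 +
      2 * (conj (d 0) * (P142.pt s θ * q (P142.pt s θ))).re := continuous_const.add cw
  simp only [P142.J]
  rw [intervalIntegral.integral_congr (fun θ _ => e θ),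
    intervalIntegral.integral_add (c1.intervalIntegrable _ _) (c2.intervalIntegrable _ _),
    intervalIntegral.integral_add intervalIntegrable_const (cw.intervalIntegrable _ _),
    intervalIntegral.integral_const_mul, intervalIntegral.integral_const_mul, h0,
    intervalIntegral.integral_const, smul_eq_mul]
  ring

theorem J_eq_sum : ∀ {N : ℕ} {p : ℂ → ℂ} {d : ℕ → ℂ}, Jet p d N →
    ∃ q : ℂ → ℂ, DifferentiableOn ℂ q (ball 0 1) ∧ ∀ s ∈ Ico (0 : ℝ) 1,
      P142.J p s = 2 * π * ∑ k ∈ range N, ‖d k‖ ^ 2 * s ^ (2 * k) + s ^ (2 * N) * P142.J q s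
  | 0, p, d, h => ⟨p, h.differentiableOn, fun s _ => by simp⟩
  | N + 1, p, d, h => by
    obtain ⟨q, hj, he⟩ := J_eq_shift h
    obtain ⟨r, hr, hs⟩ := J_eq_sum hj
    refine ⟨r, hr, fun s hm => ?_⟩
    rw [he s hm, hs s hm, sum_range_succ']
    simp only [mul_sum, mul_add, mul_zero, pow_zero, mul_one]
    rw [show ∑ k ∈ range N, 2 * π * (‖d (k + 1)‖ ^ 2 * s ^ (2 * k + 2)) =
        ∑ k ∈ range N, s ^ 2 * (2 * π * (‖d (k + 1)‖ ^ 2 * s ^ (2 * k))) from
      sum_congr rfl fun k _ => by ring]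
    ring

/-- The flux integrand of a cubic, through its cleared Laurent series. -/
theorem flux_poly {h : ℂ → ℂ} (hh : DifferentiableOn ℂ h (ball 0 1)) (a1 a2 a3 : ℂ)
    {r : ℝ} (hr : r ∈ Ioo (0 : ℝ) 1) (θ : ℝ) :
    flux (fun _ => 1) (fun w => a1 * w + a2 * w ^ 2 + a3 * w ^ 3)
        (fun w => a1 + 2 * a2 * w + 3 * a3 * w ^ 2) (fun z => h z / z)
        (deriv fun z => h z / z) r θ =
      (r * P142.P (fun z => a1 * (z * (z * h z)) + a2 * (z * (h z * h z)) +
          a3 * (h z * (h z * h z))) (deriv fun z => a1 * (z * (z * h z)) + a2 * (z * (h z * h z)) +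
          a3 * (h z * (h z * h z))) r θ / 2 -
        3 * ‖a1 * (P142.pt r θ * (P142.pt r θ * h (P142.pt r θ))) +
          a2 * (P142.pt r θ * (h (P142.pt r θ) * h (P142.pt r θ))) +
          a3 * (h (P142.pt r θ) * (h (P142.pt r θ) * h (P142.pt r θ)))‖ ^ 2) / (2 * r ^ 6) := by
  have hr' : r ∈ Ioo (-1 : ℝ) 1 := ⟨by linarith [hr.1], hr.2⟩
  set z := P142.pt r θ with hz
  have hzb : z ∈ ball (0 : ℂ) 1 := P142.pt_mem (abs_lt.2 hr') θ
  have hzn : ‖z‖ = r := by rw [hz, P142.norm_pt, abs_of_pos hr.1]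
  have hz0 : z ≠ 0 := norm_pos_iff.1 (hzn ▸ hr.1)
  have hdh := (hh.differentiableAt (isOpen_ball.mem_nhds hzb)).hasDerivAt
  have hH := hdh.div (hasDerivAt_id z) hz0
  have hdN : deriv (fun z => a1 * (z * (z * h z)) + a2 * (z * (h z * h z)) +
      a3 * (h z * (h z * h z))) z = a1 * (2 * z * h z + z ^ 2 * deriv h z) +
      a2 * (h z ^ 2 + 2 * z * h z * deriv h z) + a3 * (3 * h z ^ 2 * deriv h z) := by
    refine (((((hasDerivAt_id z).mul ((hasDerivAt_id z).mul hdh)).const_mul a1).add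
      (((hasDerivAt_id z).mul (hdh.mul hdh)).const_mul a2)).add
      ((hdh.mul (hdh.mul hdh)).const_mul a3)).congr_deriv ?_ |>.deriv
    simp only [id, Pi.mul_apply]
    ring
  have key : ∀ (w k : ℂ), conj (a1 * (w / z) + a2 * (w / z) ^ 2 + a3 * (w / z) ^ 3) *
      (a1 + 2 * a2 * (w / z) + 3 * a3 * (w / z) ^ 2) * (z * ((k * z - w * 1) / z ^ 2)) =
      conj (a1 * (z * (z * w)) + a2 * (z * (w * w)) + a3 * (w * (w * w))) *
        (z * (a1 * (2 * z * w + z ^ 2 * k) + a2 * (w ^ 2 + 2 * z * w * k) +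
          a3 * (3 * w ^ 2 * k)) - 3 * (a1 * (z * (z * w)) + a2 * (z * (w * w)) +
            a3 * (w * (w * w)))) / ((r ^ 6 : ℝ) : ℂ) := by
    intro w k
    have hc : a1 * (w / z) + a2 * (w / z) ^ 2 + a3 * (w / z) ^ 3 =
        (a1 * (z * (z * w)) + a2 * (z * (w * w)) + a3 * (w * (w * w))) / z ^ 3 := by
      field_simp
    rw [show ((r ^ 6 : ℝ) : ℂ) = conj (z ^ 3) * z ^ 3 by
      rw [Complex.conj_mul', norm_pow, hzn]; push_cast; ring, hc, map_div₀]
    generalize conj (a1 * (z * (z * w)) + a2 * (z * (w * w)) + a3 * (w * (w * w))) = A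
    have hcz : conj (z ^ 3) ≠ 0 := by simpa using hz0
    generalize conj (z ^ 3) = B at hcz ⊢
    field_simp
    ring
  simp only [flux, P142.P, ← hz, one_mul]
  rw [show deriv (fun z => h z / z) z = _ from hH.deriv, hdN]
  simp only [id]
  rw [key, Complex.div_ofReal_re]
  have hze : z = (r : ℂ) * exp (θ * I) := rfl
  generalize a1 * (2 * z * h z + z ^ 2 * deriv h z) + a2 * (h z ^ 2 + 2 * z * h z * deriv h z) +
    a3 * (3 * h z ^ 2 * deriv h z) = D
  generalize a1 * (z * (z * h z)) + a2 * (z * (h z * h z)) + a3 * (h z * (h z * h z)) = N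
  simp only [Complex.sq_norm, Complex.normSq_apply, hze, mul_re, mul_im, sub_re, sub_im,
    conj_re, conj_im, ofReal_re, ofReal_im, re_ofNat, im_ofNat]
  field_simp
  ring

theorem J_div_deriv_nonpos {N : ℂ → ℂ} (hd : DifferentiableOn ℂ N (ball 0 1)) {r : ℝ}
    (hr : r ∈ Ioo (0 : ℝ) 1) (hf : ∫ θ in (-π)..π,
      (r * P142.P N (deriv N) r θ / 2 - 3 * ‖N (P142.pt r θ)‖ ^ 2) / (2 * r ^ 6) ≤ 0) :
    P142.J1 N (deriv N) r / r ^ 6 - 6 * P142.J N r / r ^ 7 ≤ 0 := by
  have hr' : r ∈ Ioo (-1 : ℝ) 1 := ⟨by linarith [hr.1], hr.2⟩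
  have cP : Continuous (P142.P N (deriv N) r) :=
    (P142.continuousOn_P (u := N) (u' := deriv N) (u'' := deriv (deriv N))
      (fun z hz => (hd.differentiableAt (isOpen_ball.mem_nhds hz)).hasDerivAt)
      (fun z hz => ((hd.deriv isOpen_ball).differentiableAt
        (isOpen_ball.mem_nhds hz)).hasDerivAt)).comp_continuous
      (continuous_const.prodMk continuous_id) fun θ => ⟨hr', Set.mem_univ _⟩
  have cN := P142.continuous_sq hd.continuousOn (abs_lt.2 hr')
  rw [intervalIntegral.integral_div, intervalIntegral.integral_sub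
    (((cP.const_mul r).div_const 2).intervalIntegrable _ _)
    ((cN.const_mul 3).intervalIntegrable _ _), intervalIntegral.integral_div,
    intervalIntegral.integral_const_mul, intervalIntegral.integral_const_mul,
    div_le_iff₀ (by have := pow_pos hr.1 6; positivity), zero_mul] at hf
  have e2 : P142.J1 N (deriv N) r / r ^ 6 - 6 * P142.J N r / r ^ 7 =
      2 * (r * P142.J1 N (deriv N) r / 2 - 3 * P142.J N r) / r ^ 7 := by
    field_simp [hr.1.ne']
    ring
  rw [e2]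
  exact div_nonpos_of_nonpos_of_nonneg (mul_nonpos_of_nonneg_of_nonpos zero_le_two hf)
    (pow_nonneg hr.1.le 7)

/-- The area inequality for `a1 g + a2 g^2 + a3 g^3`, where `g ζ = ζ * h ζ⁻¹` is univalent outside
the disc and `c` are the coefficients of its cleared Laurent series. -/
theorem poly_area {h : ℂ → ℂ} (hh : DifferentiableOn ℂ h (ball 0 1)) (h0 : h 0 = 1)
    (hne : ∀ z ∈ ball (0 : ℂ) 1, h z ≠ 0)
    (hinj : InjOn (fun z => h z / z) (ball 0 1 \ {0})) (a1 a2 a3 : ℂ) {c : ℕ → ℂ} {M : ℕ}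
    (hM : 3 ≤ M) (hJ : Jet (fun z => a1 * (z * (z * h z)) + a2 * (z * (h z * h z)) +
      a3 * (h z * (h z * h z))) c M) :
    ∑ k ∈ range M, ((k : ℝ) - 3) * ‖c k‖ ^ 2 ≤ 0 := by
  set N : ℂ → ℂ := fun z => a1 * (z * (z * h z)) + a2 * (z * (h z * h z)) +
    a3 * (h z * (h z * h z)) with hN
  have hd : DifferentiableOn ℂ N (ball 0 1) := hJ.differentiableOn
  have hd' := hd.deriv isOpen_ball
  have h1 : ∀ z ∈ P142.disc, HasDerivAt N (deriv N z) z := fun z hz =>
    (hd.differentiableAt (isOpen_ball.mem_nhds hz)).hasDerivAt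
  have h2 : ∀ z ∈ P142.disc, HasDerivAt (deriv N) (deriv (deriv N) z) z := fun z hz =>
    (hd'.differentiableAt (isOpen_ball.mem_nhds hz)).hasDerivAt
  set p : ℂ → ℂ := fun w => a1 * w + a2 * w ^ 2 + a3 * w ^ 3 with hpdef
  set p' : ℂ → ℂ := fun w => a1 + 2 * a2 * w + 3 * a3 * w ^ 2 with hp'def
  have hp : ∀ w, HasDerivAt p (p' w) w := fun w =>
    ((((hasDerivAt_id w).const_mul a1).add ((hasDerivAt_pow 2 w).const_mul a2)).add
      ((hasDerivAt_pow 3 w).const_mul a3)).congr_deriv (by simp [hp'def]; ring)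
  have hp' : ∀ w, HasDerivAt p' (2 * a2 + 6 * a3 * w) w := fun w =>
    ((((hasDerivAt_id w).const_mul (2 * a2)).const_add a1).add
      ((hasDerivAt_pow 2 w).const_mul (3 * a3))).congr_deriv (by simp; ring)
  -- the mean square of `N` over `r^6` decreases
  have hdec : ∀ r ∈ Ioo (0 : ℝ) 1, HasDerivAt (fun s => P142.J N s / s ^ 6)
      (P142.J1 N (deriv N) r / r ^ 6 - 6 * P142.J N r / r ^ 7) r ∧
      P142.J1 N (deriv N) r / r ^ 6 - 6 * P142.J N r / r ^ 7 ≤ 0 := by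
    intro r hr
    have hr' : r ∈ Ioo (-1 : ℝ) 1 := ⟨by linarith [hr.1], hr.2⟩
    refine ⟨((P142.hasDerivAt_J h1 h2 hr').div (hasDerivAt_pow 6 r)
      (pow_pos hr.1 6).ne').congr_deriv (by have := hr.1.ne'; field_simp; ring), ?_⟩
    have hf := flux_nonpos hh h0 hne hinj hp hp' (by fun_prop) hr
    refine J_div_deriv_nonpos hd hr (le_of_eq_of_le ?_ hf)
    exact intervalIntegral.integral_congr fun θ _ => (flux_poly hh a1 a2 a3 hr θ).symm
  have hanti : AntitoneOn (fun s => P142.J N s / s ^ 6) (Ioo 0 1) :=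
    antitoneOn_of_deriv_nonpos (convex_Ioo 0 1)
      (fun r hr => (hdec r hr).1.continuousAt.continuousWithinAt)
      (fun r hr => (hdec r (interior_subset hr)).1.differentiableAt.differentiableWithinAt)
      fun r hr => by
        rw [(hdec r (interior_subset hr)).1.deriv]; exact (hdec r (interior_subset hr)).2
  obtain ⟨q, hq, he⟩ := J_eq_sum hJ
  have hmono : MonotoneOn (P142.J q) (Ico 0 1) :=
    P142.J_monotoneOn (u' := deriv q) (u'' := deriv (deriv q))
      (fun z hz => (hq.differentiableAt (isOpen_ball.mem_nhds hz)).hasDerivAt)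
      (fun z hz => ((hq.deriv isOpen_ball).differentiableAt (isOpen_ball.mem_nhds hz)).hasDerivAt)
      ((hq.deriv isOpen_ball).deriv isOpen_ball).continuousOn
  set φ : ℝ → ℝ := fun s => (∑ k ∈ range M, ‖c k‖ ^ 2 * s ^ (2 * k)) / s ^ 6 with hφ
  have hphi : AntitoneOn φ (Ioo 0 1) := by
    intro x hx y hy hxy
    have e : ∀ s ∈ Ioo (0 : ℝ) 1, P142.J N s / s ^ 6 =
        2 * π * φ s + s ^ (2 * M - 6) * P142.J q s := fun s hs => by
      rw [he s ⟨hs.1.le, hs.2⟩, hφ]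
      have : s ^ (2 * M) = s ^ (2 * M - 6) * s ^ 6 := by rw [← pow_add]; congr 1; omega
      rw [this]
      field_simp [hs.1.ne']
    have h' := hanti hx hy hxy
    simp only at h'
    rw [e x hx, e y hy] at h'
    have hq' : x ^ (2 * M - 6) * P142.J q x ≤ y ^ (2 * M - 6) * P142.J q y :=
      mul_le_mul (pow_le_pow_left₀ hx.1.le hxy _) (hmono ⟨hx.1.le, hx.2⟩ ⟨hy.1.le, hy.2⟩ hxy)
        (P142.J_nonneg _ _) (pow_nonneg hy.1.le _)
    nlinarith [Real.pi_pos]
  set ψ : ℝ → ℝ := fun s =>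
    (∑ k ∈ range M, ‖c k‖ ^ 2 * ((2 * k : ℕ) * s ^ (2 * k - 1))) / s ^ 6 -
      6 * (∑ k ∈ range M, ‖c k‖ ^ 2 * s ^ (2 * k)) / s ^ 7 with hψ
  have hle : ∀ r ∈ Ioo (0 : ℝ) 1, ψ r ≤ 0 := by
    intro r hr
    have hdd : HasDerivAt φ (ψ r) r := by
      refine ((HasDerivAt.fun_sum fun k _ => (hasDerivAt_pow (2 * k) r).const_mul (‖c k‖ ^ 2)).div
        (hasDerivAt_pow 6 r) (pow_pos hr.1 6).ne').congr_deriv ?_
      simp only [hψ]
      field_simp [hr.1.ne']
      ring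
    refine le_of_le_of_eq (le_refl _) ?_ |>.trans (AntitoneOn.derivWithin_nonpos hphi (x := r))
    rw [hdd.hasDerivWithinAt.derivWithin (isOpen_Ioo.uniqueDiffWithinAt hr)]
  have hlim : Tendsto ψ (𝓝[<] 1) (𝓝 (ψ 1)) := by
    refine ContinuousAt.continuousWithinAt ?_
    simp only [hψ]
    fun_prop (disch := norm_num)
  have h1' : ψ 1 ≤ 0 := le_of_tendsto hlim (Filter.eventually_of_mem
    (Ioo_mem_nhdsLT (zero_lt_one' ℝ)) hle)
  simp only [hψ, one_pow, div_one, mul_one, mul_sum, ← sum_sub_distrib, Nat.cast_mul,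
    Nat.cast_ofNat] at h1'
  have : ∑ k ∈ range M, ((k : ℝ) - 3) * ‖c k‖ ^ 2 =
      (∑ k ∈ range M, (‖c k‖ ^ 2 * (2 * k) - 6 * ‖c k‖ ^ 2)) / 2 := by
    rw [sum_div]; exact sum_congr rfl fun k _ => by ring
  rw [this]
  linarith

end Vale.Agent.P142K
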