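import Mathlib

/-!
# Six exterior coefficients: body, jets and rate

For a univalent `f` the coefficients `b` of `ζ ↦ f'(0) / (f (1/ζ) - f 0)` obey the area theorem,
`‖b 0‖ ≤ 2`, and the Grunsky inequality of size three.
-/

namespace Vale.Agent.P142K

open Complex

/-- The first five jets. -/
abbrev St := Fin 5 → ℂ

/-- The first five of six coefficients. -/
def low (b : Fin 6 → ℂ) : St := fun i => b i.castSucc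

/-- The quadratic form of the Grunsky coefficients of size three. -/
noncomputable def gform (b : Fin 6 → ℂ) (v1 v2 v3 : ℂ) : ℂ :=
  v1 ^ 2 * b 1 + 2 * v1 * v2 * b 2 + 2 * v1 * v3 * b 3 + v2 ^ 2 * (b 3 + b 1 ^ 2 / 2) +
    2 * v2 * v3 * (b 4 + b 1 * b 2) +
    v3 ^ 2 * (b 5 + b 1 * b 3 + b 2 ^ 2 + b 1 ^ 3 / 3)

/-- What is used about six coefficients. -/
structure Body (b : Fin 6 → ℂ) : Prop where
  area : ‖b 1‖ ^ 2 + 2 * ‖b 2‖ ^ 2 + 3 * ‖b 3‖ ^ 2 + 4 * ‖b 4‖ ^ 2 + 5 * ‖b 5‖ ^ 2 ≤ 1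
  disc : ‖b 0‖ ≤ 2
  grunsky : ∀ v1 v2 v3 : ℂ, ‖gform b v1 v2 v3‖ ≤ ‖v1‖ ^ 2 + ‖v2‖ ^ 2 / 2 + ‖v3‖ ^ 2 / 3

/-- The normalised Taylor coefficient `f^(n)(z) / (n! f'(z))`. -/
noncomputable def acoef (f : ℂ → ℂ) (n : ℕ) (z : ℂ) : ℂ :=
  iteratedDeriv n f z / (n.factorial * deriv f z)

/-- The exterior coefficients of the series `w + a 2 w^2 + a 3 w^3 + …`. -/
def expB (a : ℕ → ℂ) : Fin 6 → ℂ :=
  ![-a 2, a 2 ^ 2 - a 3, -a 4 + 2 * a 2 * a 3 - a 2 ^ 3,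
    -a 5 + 2 * a 2 * a 4 + a 3 ^ 2 - 3 * a 2 ^ 2 * a 3 + a 2 ^ 4,
    -a 6 + 2 * a 2 * a 5 + 2 * a 3 * a 4 - 3 * a 2 ^ 2 * a 4 - 3 * a 2 * a 3 ^ 2 +
      4 * a 2 ^ 3 * a 3 - a 2 ^ 5,
    -a 7 + 2 * a 2 * a 6 + 2 * a 3 * a 5 + a 4 ^ 2 - 3 * a 2 ^ 2 * a 5 -
      6 * a 2 * a 3 * a 4 - a 3 ^ 3 + 4 * a 2 ^ 3 * a 4 + 6 * a 2 ^ 2 * a 3 ^ 2 -
      5 * a 2 ^ 4 * a 3 + a 2 ^ 6]

/-- The coefficients after `ζ ↦ ζ + r`. -/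
def shiftB (r : ℂ) (b : Fin 6 → ℂ) : Fin 6 → ℂ :=
  ![r + b 0, b 1, b 2 - r * b 1, b 3 - 2 * r * b 2 + r ^ 2 * b 1,
    b 4 - 3 * r * b 3 + 3 * r ^ 2 * b 2 - r ^ 3 * b 1,
    b 5 - 4 * r * b 4 + 6 * r ^ 2 * b 3 - 4 * r ^ 3 * b 2 + r ^ 4 * b 1]

/-- The unit vector of the angle `θ`. -/
noncomputable def dir (θ : ℝ) : ℂ := exp (θ * I)

/-- Taylor coefficients at `r e^(iθ)` in the hyperbolic scale of that point. -/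
noncomputable def scaled (f : ℂ → ℂ) (r θ : ℝ) (n : ℕ) : ℂ :=
  acoef f n (r * dir θ) * ((((1 - r ^ 2 : ℝ)) : ℂ) * dir θ) ^ (n - 1)

/-- The exterior coefficients of the Koebe transform at `r e^(iθ)`. -/
noncomputable def jets (f : ℂ → ℂ) (r θ : ℝ) : Fin 6 → ℂ := shiftB r (expB (scaled f r θ))

/-- `(1 - r^2)/2` times the radial derivative of the first five jets. -/
noncomputable def dR (b : Fin 6 → ℂ) : St :=
  ![(3 * b 1 + 1 - b 0 ^ 2) / 2, 2 * b 2, (5 * b 3 - b 1 + b 1 ^ 2) / 2,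
    3 * b 4 - b 2 + b 1 * b 2, (7 * b 5 - 3 * b 3 + 2 * b 1 * b 3 + b 2 ^ 2) / 2]

/-- `(1 - r^2)/2` times the angular derivative of the first five jets. -/
noncomputable def dT (r : ℝ) (b : Fin 6 → ℂ) : St :=
  ![I / 2 * (r * (3 * b 1 - 1 - b 0 ^ 2) + (1 + r ^ 2) * b 0),
    I / 2 * (4 * r * b 2 + 2 * (1 + r ^ 2) * b 1),
    I / 2 * (r * (5 * b 3 + b 1 + b 1 ^ 2) + 3 * (1 + r ^ 2) * b 2),
    I / 2 * (r * (6 * b 4 + 2 * b 2 + 2 * b 1 * b 2) + 4 * (1 + r ^ 2) * b 3),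
    I / 2 * (r * (7 * b 5 + 3 * b 3 + 2 * b 1 * b 3 + b 2 ^ 2) + 5 * (1 + r ^ 2) * b 4)]

/-- The defect in the growth inequality for the mean of `P ‖f'‖^t`, corrected by a derivative. -/
noncomputable def rate (t α : ℝ) (P Q : St → ℝ) (r : ℝ) (b : Fin 6 → ℂ) : ℝ :=
  α * P (low b) - t * (r - (b 0).re) * P (low b) - fderiv ℝ P (low b) (dR b) -
    t * r * (b 0).im * Q (low b) - fderiv ℝ Q (low b) (dT r b)

/-- A certificate that the mean of `‖f'‖^t` grows at most like `(1 - r)^(-α)`. -/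
def Cert (t α : ℝ) (P Q : St → ℝ) : Prop :=
  ContDiff ℝ 1 P ∧ ContDiff ℝ 1 Q ∧ ∃ ε : ℝ, 0 < ε ∧ ∀ b, Body b →
    ε ≤ P (low b) ∧ ε ≤ rate t α P Q 1 b

end Vale.Agent.P142K
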