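import Mathlib
import Vale.Agent.P142K.Area
import Vale.Agent.P142K.Defs

/-!
# Six coefficients of a univalent map lie in the body
-/

namespace Vale.Agent.P142K

open Complex Set Metric Finset
open Vale.Agent.P142J (Jet)

/-- The series `1 + b 0 z + … + b 5 z^6`. -/
def hser (b : Fin 6 → ℂ) : ℕ → ℂ
  | 0 => 1
  | 1 => b 0
  | 2 => b 1
  | 3 => b 2
  | 4 => b 3
  | 5 => b 4
  | 6 => b 5
  | _ + 7 => 0

/-- The normalised exterior map of a univalent map, and its seven coefficients. -/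
theorem exists_exterior {f : ℂ → ℂ} (hf : DifferentiableOn ℂ f (ball 0 1))
    (hinj : InjOn f (ball 0 1)) :
    ∃ h : ℂ → ℂ, DifferentiableOn ℂ h (ball 0 1) ∧ h 0 = 1 ∧ (∀ z ∈ ball (0 : ℂ) 1, h z ≠ 0) ∧
      InjOn (fun ζ => ζ * h ζ⁻¹) {ζ : ℂ | 1 < ‖ζ‖} ∧
      InjOn (fun z => h z / z) (ball 0 1 \ {0}) ∧
      Jet h (hser (expB fun n => acoef f n 0)) 7 := by
  have h0mem : (0 : ℂ) ∈ ball (0 : ℂ) 1 := mem_ball_self one_pos
  have hd0 : deriv f 0 ≠ 0 := P142J.deriv_ne_zero hf hinj 0 h0mem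
  have hmem : ball (0 : ℂ) 1 ∈ nhds (0 : ℂ) := ball_mem_nhds 0 one_pos
  set u : ℂ → ℂ := fun z => dslope f 0 z / deriv f 0 with hu
  have hud : DifferentiableOn ℂ u (ball 0 1) :=
    ((differentiableOn_dslope hmem).2 hf).div_const _
  have hu0 : u 0 = 1 := by simp [hu, hd0]
  have hzu : ∀ z : ℂ, z * u z = (f z - f 0) / deriv f 0 := fun z => by
    have := sub_smul_dslope f 0 z
    simp only [sub_zero, smul_eq_mul] at this
    rw [hu, mul_div_assoc', this]
  have hune : ∀ z ∈ ball (0 : ℂ) 1, u z ≠ 0 := by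
    intro z hz hcon
    by_cases hz0 : z = 0
    · rw [hz0, hu0] at hcon; exact one_ne_zero hcon
    · have := hzu z
      rw [hcon, mul_zero, eq_comm, div_eq_zero_iff] at this
      exact hz0 (hinj hz h0mem (sub_eq_zero.1 (this.resolve_right hd0)))
  set a : ℕ → ℂ := fun n => acoef f n 0
  -- the jet of `u`
  have huJ : Jet u (fun k => a (k + 1)) 7 := by
    obtain ⟨p, -, hp, hpf⟩ := (P142J.jet_taylor hf 8).shift
    refine jet_congr (p := fun z => (deriv f 0)⁻¹ * p z) ?_ ?_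
    · obtain ⟨q, hq, hqe⟩ := jet_smul (deriv f 0)⁻¹ hp
      refine ⟨q, hq, fun z hz => (hqe z hz).trans ?_⟩
      congr 1
      refine sum_congr rfl fun k _ => ?_
      simp only [a, acoef]
      field_simp
    · intro z hz
      have hfd : ∀ w ∈ ball (0 : ℂ) 1, f w = f 0 + w * p w := fun w hw => by
        simpa using hpf w hw
      by_cases hz0 : z = 0
      · subst hz0
        obtain ⟨q, hq, hqe⟩ := hp
        have hp0 : p 0 = deriv f 0 := by
          simpa [sum_range_succ', iteratedDeriv_one] using hqe 0 h0mem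
        simp [hu0, hp0, hd0]
      · refine mul_left_cancel₀ hz0 ?_
        rw [hzu, hfd z hz]
        field_simp
        ring
  set c := hser (expB a) with hc
  have hP : Jet (fun z => ∑ k ∈ range 7, c k * z ^ k) c 7 :=
    ⟨fun _ => 0, by fun_prop, fun z _ => by simp⟩
  obtain ⟨S, hS, hSe⟩ := jet_mul huJ hP
  have hone : ∀ k ∈ range 7, conv (fun k => a (k + 1)) c k = if k = 0 then 1 else 0 := by
    have ha1 : a 1 = 1 := by simp [a, acoef, iteratedDeriv_one, hd0]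
    intro k hk
    rw [Finset.mem_range] at hk
    interval_cases k <;> simp [conv, sum_range_succ, hc, hser, expB, ha1] <;> ring
  refine ⟨fun z => (u z)⁻¹, hud.inv hune, by simp [hu0], fun z hz => inv_ne_zero (hune z hz),
    ?_, ?_, ?_⟩
  · intro x hx y hy hxy
    have e : ∀ w : ℂ, (w * (u w⁻¹)⁻¹)⁻¹ = (f w⁻¹ - f 0) / deriv f 0 := fun w => by
      rw [← hzu, mul_inv, inv_inv]
    have h2 : (x * (u x⁻¹)⁻¹)⁻¹ = (y * (u y⁻¹)⁻¹)⁻¹ := congrArg _ hxy
    rw [e, e, div_left_inj' hd0, sub_left_inj] at h2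
    exact inv_injective (hinj (P142J.inv_mem_ball hx) (P142J.inv_mem_ball hy) h2)
  · intro x hx y hy hxy
    have e : ∀ w : ℂ, ((u w)⁻¹ / w)⁻¹ = (f w - f 0) / deriv f 0 := fun w => by
      rw [← hzu, inv_div, div_inv_eq_mul]
    have h2 : ((u x)⁻¹ / x)⁻¹ = ((u y)⁻¹ / y)⁻¹ := congrArg _ hxy
    rw [e, e, div_left_inj' hd0, sub_left_inj] at h2
    exact hinj hx.1 hy.1 h2
  · refine ⟨fun z => -((u z)⁻¹ * S z), ((hud.inv hune).mul hS).neg, fun z hz => ?_⟩
    have h1 := hSe z hz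
    simp only at h1
    rw [sum_congr (s₁ := range 7) (f := fun k => conv (fun k => a (k + 1)) c k * z ^ k)
      (g := fun k => (if k = 0 then 1 else 0) * z ^ k) rfl fun k hk => by rw [hone k hk]] at h1
    simp only [ite_mul, one_mul, zero_mul, sum_ite_eq', Finset.mem_range, Nat.ofNat_pos, if_true,
      pow_zero] at h1
    have h2 : (u z)⁻¹ * u z = 1 := inv_mul_cancel₀ (hune z hz)
    simp only
    linear_combination -(u z)⁻¹ * h1 + (∑ k ∈ range 7, c k * z ^ k) * h2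

/-- The coefficients of `a1 z^2 h + a2 z h^2 + a3 h^3`. -/
theorem jet_cubic {h : ℂ → ℂ} {c : ℕ → ℂ} {N : ℕ} (hJ : Jet h c N) (a1 a2 a3 : ℂ) :
    Jet (fun z => a1 * (z * (z * h z)) + a2 * (z * (h z * h z)) + a3 * (h z * (h z * h z)))
      (fun k => a1 * (if k = 0 then 0 else if k - 1 = 0 then 0 else c (k - 1 - 1)) +
        a2 * (if k = 0 then 0 else conv c c (k - 1)) + a3 * conv c (conv c c) k) N :=
  jet_add (jet_add (jet_smul a1 (jet_pred (jet_id_mul (jet_pred (jet_id_mul hJ)))))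
    (jet_smul a2 (jet_pred (jet_id_mul (jet_mul hJ hJ)))))
    (jet_smul a3 (jet_mul hJ (jet_mul hJ hJ)))

theorem body_expB {f : ℂ → ℂ} (hf : DifferentiableOn ℂ f (ball 0 1))
    (hinj : InjOn f (ball 0 1)) : Body (expB fun n => acoef f n 0) := by
  obtain ⟨h, hh, h0, hne, hinjG, hinjH, hJ⟩ := exists_exterior hf hinj
  set b := expB fun n => acoef f n 0 with hb
  refine ⟨?_, ?_, fun v1 v2 v3 => ?_⟩
  · have := P142J.area_bound (M := 4) hh hJ (by simp [hser]) hinjG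
    simp [sum_range_succ, hser] at this
    norm_num at this ⊢
    linarith
  · have hB := (P142J.body_coef hf hinj).2
    have e : b 0 = -P142J.coef f 2 := by simp [hb, expB, acoef, P142J.coef]
    rw [e]
    have h1 : ‖-P142J.coef f 2 / 2‖ ^ 2 ≤ 1 := le_trans (by
      refine le_add_of_le_of_nonneg (le_add_of_le_of_nonneg (le_add_of_le_of_nonneg le_rfl ?_) ?_) ?_
      all_goals positivity) hB
    rw [norm_div, Complex.norm_two, div_pow, div_le_one (by norm_num)] at h1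
    nlinarith [norm_nonneg (-P142J.coef f 2)]
  · have hp := poly_area hh h0 hne hinjH
      (3 * (b 0 ^ 2 - b 1) * (v3 / 3) - 2 * b 0 * (v2 / 2) + v1)
      (v2 / 2 - 3 * b 0 * (v3 / 3)) (v3 / 3) (by norm_num) (jet_cubic hJ _ _ _)
    simp [sum_range_succ, conv, hser] at hp
    norm_num at hp
    set d4 := v1 * b 1 + v2 * b 2 + v3 * b 3 with hd4
    set d5 := v1 * b 2 + v2 * (b 3 + b 1 ^ 2 / 2) + v3 * (b 4 + b 1 * b 2) with hd5
    set d6 := v1 * b 3 + v2 * (b 4 + b 1 * b 2) +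
      v3 * (b 5 + b 1 * b 3 + b 2 ^ 2 + b 1 ^ 3 / 3) with hd6
    have hd : ‖d4‖ ^ 2 + 2 * ‖d5‖ ^ 2 + 3 * ‖d6‖ ^ 2 ≤
        ‖v1‖ ^ 2 + ‖v2‖ ^ 2 / 2 + ‖v3‖ ^ 2 / 3 := by
      rw [hd4, hd5, hd6]
      have hv : ‖v2 * (1 / 2)‖ = ‖v2‖ / 2 := by simp [div_eq_mul_inv]
      ring_nf at hp hv ⊢
      rw [hv] at hp
      linarith
    have hg : gform b v1 v2 v3 = v1 * d4 + v2 * d5 + v3 * d6 := by
      simp only [gform, hd4, hd5, hd6]; ring
    rw [hg]
    refine (norm_add₃_le).trans ?_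
    simp only [norm_mul]
    nlinarith [sq_nonneg (‖v1‖ - ‖d4‖), sq_nonneg (‖v2‖ - 2 * ‖d5‖), sq_nonneg (‖v3‖ - 3 * ‖d6‖)]

end Vale.Agent.P142K
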