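import Vale.Agent.P142K.Checker

/-!
# The checker, written with primitive recursion

The same functions as in the checker, with bodies that the kernel unfolds cheaply, and the checks
of a certificate by slices in the outer variable.
-/

namespace Vale.Agent.P142K.Fast

open Vale.Agent.P142J (MP addE dotL addL mulL lift)

variable {α : Type}

/-- `addL`. -/
noncomputable def addLR (f : α → α → α) : List α → List α → List α :=
  fun p => List.rec (fun q => q)
    (fun a tl ih q => List.casesOn q (a :: tl) (fun b q' => f a b :: ih q')) p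

/-- `MP.add`. -/
noncomputable def addR : (n : ℕ) → MP n → MP n → MP n :=
  fun n => Nat.rec (motive := fun n => MP n → MP n → MP n) (fun a b => Int.add a b)
    (fun _ f => addLR f) n

/-- `List.map`. -/
noncomputable def mapR (g : α → α) : List α → List α :=
  fun p => List.rec [] (fun a _ ih => g a :: ih) p

/-- `MP.mul`. -/
noncomputable def mulR : (n : ℕ) → MP n → MP n → MP n :=
  fun n => Nat.rec (motive := fun n => MP n → MP n → MP n) (fun a b => Int.mul a b)
    (fun n g p q => List.rec [] (fun a _ ih => addLR (addR n) (mapR (g a) q) (MP.zero n :: ih)) p) n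

/-- `MP.smul`. -/
noncomputable def smulR (c : ℤ) : (n : ℕ) → MP n → MP n :=
  fun n => Nat.rec (motive := fun n => MP n → MP n) (fun a => Int.mul c a) (fun _ f => mapR f) n

/-- `MP.modAt`. -/
noncomputable def modR (z : α) (g : α → α) : ℕ → List α → List α :=
  fun e => Nat.rec (fun p => List.casesOn p [g z] (fun a p' => g a :: p'))
    (fun _ ih p => List.casesOn p (z :: ih []) (fun a p' => a :: ih p')) e

/-- `MP.addMono`. -/
noncomputable def addMonoR : (n : ℕ) → List ℕ → ℤ → MP n → MP n :=
  fun n => Nat.rec (motive := fun n => List ℕ → ℤ → MP n → MP n) (fun _ c a => Int.add a c)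
    (fun n ih es c => List.casesOn es (modR (MP.zero n) (ih [] c) 0)
      (fun e es' => modR (MP.zero n) (ih es' c) e)) n

/-- `MP.l1`. -/
noncomputable def l1R : (n : ℕ) → MP n → ℕ :=
  fun n => Nat.rec (motive := fun n => MP n → ℕ) (fun a => Int.natAbs a)
    (fun _ f p => List.rec (0 : ℕ) (fun a _ s => Nat.add (f a) s) p) n

theorem addLR_eq (f : α → α → α) : ∀ p q, addLR f p q = addL f p q
  | [], q => by cases q <;> rfl
  | _ :: _, [] => rfl
  | a :: p, b :: q => congrArg (f a b :: ·) (addLR_eq f p q)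

theorem addR_eq : ∀ (n : ℕ), addR n = MP.add n
  | 0 => rfl
  | n + 1 => by
    funext p q
    change addLR (addR n) p q = addL (MP.add n) p q
    rw [addR_eq n, addLR_eq]

theorem mapR_eq (g : α → α) : ∀ p, mapR g p = p.map g
  | [] => rfl
  | a :: p => congrArg (g a :: ·) (mapR_eq g p)

theorem mulR_eq : ∀ n : ℕ, mulR n = MP.mul n
  | 0 => rfl
  | n + 1 => by
    funext p q
    induction p with
    | nil => rfl
    | cons a p ih =>
      change addLR (addR n) (mapR (mulR n a) q) (MP.zero n :: mulR (n + 1) p q) = _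
      rw [ih, addR_eq, mulR_eq n, addLR_eq, mapR_eq]
      rfl

theorem smulR_eq (c : ℤ) : ∀ n : ℕ, smulR c n = MP.smul c n
  | 0 => rfl
  | n + 1 => by
    funext p
    change mapR (smulR c n) p = List.map (MP.smul c n) p
    rw [smulR_eq c n, mapR_eq]

theorem modR_eq (z : α) (g : α → α) : ∀ e p, modR z g e p = MP.modAt z g e p
  | 0, [] => rfl
  | 0, _ :: _ => rfl
  | e + 1, [] => congrArg (z :: ·) (modR_eq z g e [])
  | e + 1, a :: p => congrArg (a :: ·) (modR_eq z g e p)

theorem addMonoR_eq : ∀ (n : ℕ) (es : List ℕ) (c : ℤ), addMonoR n es c = MP.addMono n es c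
  | 0, _, _ => rfl
  | n + 1, [], c => by
    funext p
    change modR (MP.zero n) (addMonoR n [] c) 0 p = MP.modAt (MP.zero n) (MP.addMono n [] c) 0 p
    rw [addMonoR_eq n, modR_eq]
  | n + 1, e :: es, c => by
    funext p
    change modR (MP.zero n) (addMonoR n es c) e p = MP.modAt (MP.zero n) (MP.addMono n es c) e p
    rw [addMonoR_eq n, modR_eq]

theorem l1R_eq : ∀ (n : ℕ) (p : MP n), l1R n p = MP.l1 n p
  | 0, _ => rfl
  | n + 1, p => by
    induction p with
    | nil => rfl
    | cons a p ih =>
      change l1R n a + l1R (n + 1) p = MP.l1 n a + MP.l1 (n + 1) p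
      rw [ih, l1R_eq n a]

/-- `dotL`. -/
noncomputable def dotR (p q : List ℤ) : ℤ :=
  (List.rec (fun _ => (0 : ℤ)) (fun a _ ih q => List.casesOn q (0 : ℤ)
    (fun b q' => Int.add (Int.mul a b) (ih q'))) p : List ℤ → ℤ) q

theorem dotR_eq : ∀ p q, dotR p q = dotL p q
  | [], _ => rfl
  | _ :: _, [] => rfl
  | a :: p, b :: q => congrArg (Int.add (Int.mul a b)) (dotR_eq p q)

/-- `addCols`. -/
noncomputable def addColsR : List ℤ → List ℤ → List ℤ :=
  fun r => List.rec (fun C => mapR (Int.mul 21267647932558653966460912964485513216) C)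
    (fun a tl ih C => List.casesOn C (a :: tl) (fun c C' =>
      Int.add a (Int.mul 21267647932558653966460912964485513216 c) :: ih C')) r

theorem addColsR_eq : ∀ r C, addColsR r C = addCols r C
  | [], C => by rw [addCols]; exact mapR_eq _ C
  | _ :: _, [] => rfl
  | a :: r, c :: C => by rw [addCols, ← addColsR_eq r C]; rfl

/-- `cols`. -/
noncomputable def colsR : Rows → List ℤ :=
  fun B => List.rec [] (fun p _ ih => addColsR p.2 ih) B

theorem colsR_eq : ∀ B, colsR B = cols B
  | [] => rfl
  | p :: B => by rw [cols, ← colsR_eq B, ← addColsR_eq]; rfl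

/-- `fastDots`. -/
noncomputable def dotsR (r : List ℤ) (B : Rows) (ok : Bool) : List ℤ :=
  Bool.rec (dots r B)
    (digs B (Int.toNat (Int.add (dotR r (colsR B)) (Int.ofNat (offs B))))) ok

theorem dotsR_eq (r : List ℤ) (B : Rows) (ok : Bool) : dotsR r B ok = fastDots r B ok := by
  cases ok
  · rfl
  · simp [dotsR, fastDots, colsR_eq, dotR_eq]

/-- `addRow`. -/
noncomputable def addRowR (k : ℤ) (e : List ℕ) : Rows → List ℤ → R12 → R12 :=
  fun q => List.rec (fun _ acc => acc) (fun a _ ih ds acc => List.casesOn ds acc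
    (fun d ds' => addMonoR 12 (addE e a.1) (Int.mul k d) (ih ds' acc))) q

theorem addRowR_eq (k : ℤ) (e : List ℕ) : ∀ q ds acc, addRowR k e q ds acc = addRow k e q ds acc
  | [], _, _ => rfl
  | _ :: _, [], _ => rfl
  | a :: q, d :: ds, acc => by rw [addRow, ← addRowR_eq k e q, ← addMonoR_eq]; rfl

/-- `tri`. -/
noncomputable def triR (A B : Rows) : R12 :=
  (fun ok => List.rec (motive := fun _ => R12) (MP.zero 12) (fun p rest ih =>
    addMonoR 12 (addE p.1 p.1) (dotR p.2 p.2)
      (addRowR 2 p.1 (rest ++ B) (dotsR p.2 (rest ++ B) ok) ih)) A) (smallRows (A ++ B))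

/-- `cross`. -/
noncomputable def crossR (A B : Rows) : R12 :=
  (fun ok => List.rec (motive := fun _ => R12) (MP.zero 12)
    (fun p _ ih => addRowR 1 p.1 B (dotsR p.2 B ok) ih) A) (smallRows A && smallRows B)

theorem triR_eq (A B : Rows) : triR A B = tri A B := by
  unfold triR tri
  generalize smallRows (A ++ B) = ok
  induction A with
  | nil => rfl
  | cons p rest ih => simp only [triAux, ← ih, addMonoR_eq, dotR_eq, addRowR_eq, dotsR_eq]

theorem crossR_eq (A B : Rows) : crossR A B = cross A B := by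
  unfold crossR cross
  generalize (smallRows A && smallRows B) = ok
  induction A with
  | nil => rfl
  | cons p rest ih => simp only [crossAux, ← ih, addRowR_eq, dotsR_eq]

/-- `diag`. -/
noncomputable def diagR (c : ℤ) (C : C12) (X Y : Rows) : R12 :=
  addR 12 (mulR 12 (addR 12 (MP.const c 12) (smulR (-1) 12 C.1)) (triR X []))
    (addR 12 (mulR 12 (addR 12 (MP.const c 12) C.1) (triR Y []))
      (mulR 12 (smulR 2 12 C.2) (crossR X Y)))

/-- `offd`. -/
noncomputable def offdR (C : C12) (X Y U V : Rows) : R12 :=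
  smulR 2 12 (addR 12
    (mulR 12 C.1 (addR 12 (crossR Y V) (smulR (-1) 12 (crossR X U))))
    (mulR 12 C.2 (addR 12 (crossR X V) (crossR Y U))))

/-- `mparts`. -/
noncomputable def mpartsR (l : List Rows) : List R12 :=
  [diagR 6 (pC.getD 0 (cconst 0)) (l.getD 0 []) (l.getD 1 []),
    diagR 3 (pC.getD 3 (cconst 0)) (l.getD 2 []) (l.getD 3 []),
    diagR 2 (pC.getD 5 (cconst 0)) (l.getD 4 []) (l.getD 5 []),
    offdR (pC.getD 1 (cconst 0)) (l.getD 0 []) (l.getD 1 []) (l.getD 2 []) (l.getD 3 []),
    offdR (pC.getD 2 (cconst 0)) (l.getD 0 []) (l.getD 1 []) (l.getD 4 []) (l.getD 5 []),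
    offdR (pC.getD 4 (cconst 0)) (l.getD 2 []) (l.getD 3 []) (l.getD 4 []) (l.getD 5 [])]

/-- `sparts`. -/
noncomputable def spartsR (w : R12) : List Rows → List R12 :=
  fun l => List.rec [] (fun c rest ih => mulR 12 w (triR c rest.flatten) :: ih) l

theorem mpartsR_eq (l : List Rows) : mpartsR l = mparts l := by
  simp only [mpartsR, mparts, diagR, offdR, diag, offd, addR_eq, mulR_eq, smulR_eq, triR_eq,
    crossR_eq]

theorem spartsR_eq (w : R12) : ∀ l, spartsR w l = sparts w l
  | [] => rfl
  | c :: rest => by rw [sparts, ← spartsR_eq w rest, ← triR_eq, ← mulR_eq]; rfl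

/-- `partsOf`. -/
noncomputable def partsR : ℕ → List Rows → List R12
  | 4, l => mpartsR l
  | g, l => spartsR (weight g) l

theorem partsR_eq (g : ℕ) (l : List Rows) : partsR g l = partsOf g l := by
  unfold partsR partsOf
  split <;> simp [mpartsR_eq, spartsR_eq]

/-- The expansion of one part is right. -/
noncomputable def partOkR (g : ℕ) (l : List Rows) (j : ℕ) (m : R12) : Bool :=
  Nat.ble (l1R 12 (addR 12 ((partsR g l).getD j (MP.zero 12)) (smulR (-1) 12 m))) 0

theorem partOk_of_fast {g : ℕ} {l : List Rows} {j : ℕ} {m : R12} (h : partOkR g l j m = true) :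
    partOk g l j m = true := by
  rwa [partOkR, partsR_eq, addR_eq, smulR_eq, l1R_eq] at h

/-- `ofList`. -/
noncomputable def ofListR : List (List ℕ × ℤ) → MP 10 :=
  fun l => List.rec (MP.zero 10) (fun a _ ih => addMonoR 10 a.1 a.2 ih) l

theorem ofListR_eq : ∀ l, ofListR l = ofList l
  | [] => rfl
  | (e, k) :: l => by rw [ofList, ← ofListR_eq l, ← addMonoR_eq]; rfl

/-- `dirD` from the variable number `k` on. -/
noncomputable def dirR (p : MP 10) : List C12 → ℕ → R12 :=
  fun ds => List.rec (fun _ => MP.zero 12) (fun d _ ih k => addR 12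
    (addR 12 (mulR 12 (lift 10 (MP.pdv (9 - 2 * k) 10 p)) d.1)
      (mulR 12 (lift 10 (MP.pdv (8 - 2 * k) 10 p)) d.2)) (ih (k + 1))) ds

theorem dirR_eq (p : MP 10) : ∀ ds k, dirR p ds k = dirD p k ds
  | [], _ => by rw [dirD]; rfl
  | d :: ds, k => by rw [dirD, ← dirR_eq p ds (k + 1), ← addR_eq, ← mulR_eq]; rfl

/-- `ratePoly`. -/
noncomputable def rateR (tn : ℤ) (den : ℕ) (an : ℤ) (p q : List (List ℕ × ℤ)) : R12 :=
  addR 12
    (mulR 12 (addR 12 (MP.const (4 * an + 4 * tn) 12)
      (smulR (-(8 * tn)) 12 (MP.var 11 12))) (lift 10 (ofListR p)))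
    (addR 12 (smulR (-(den : ℤ)) 12 (dirR (ofListR p) pR 0))
      (addR 12 (smulR (8 * tn) 12 (mulR 12 (MP.var 10 12) (lift 10 (ofListR q))))
        (smulR (-(den : ℤ)) 12 (dirR (ofListR q) pT 0))))

/-- `psum`. -/
noncomputable def psumR : List R12 → R12 :=
  fun l => List.rec (MP.zero 12) (fun a _ ih => addR 12 a ih) l

theorem psumR_eq : ∀ l, psumR l = psum l
  | [] => rfl
  | a :: l => by rw [psum, ← psumR_eq l, ← addR_eq]; rfl

/-- `squares`. -/
noncomputable def squaresR : List Block → R12 :=
  fun l => List.rec (MP.zero 12) (fun b _ ih => addR 12 (psumR b.mons) ih) l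

theorem squaresR_eq : ∀ l, squaresR l = squares l
  | [] => rfl
  | b :: l => by rw [squares, Block.total, ← squaresR_eq l, ← psumR_eq, ← addR_eq]; rfl

/-- The polynomial whose coefficients must be small for the rate. -/
noncomputable def restR (D : Data) : R12 :=
  addR 12 (rateR D.tn D.den D.an D.p D.q)
    (addR 12 (smulR (-1) 12 (squaresR D.sr)) (MP.const (-(D.er : ℤ)) 12))

theorem restR_eq (D : Data) : restR D = MP.add 12 (ratePoly D)
    (MP.add 12 (MP.smul (-1) 12 (squares D.sr)) (MP.const (-(D.er : ℤ)) 12)) := by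
  simp only [restR, rateR, ratePoly, addR_eq, mulR_eq, smulR_eq, ofListR_eq, dirR_eq, squaresR_eq]

/-- A slice of the rate check, for one power of the outer variable. -/
noncomputable def rateSlice (D : Data) (i c : ℕ) : Bool :=
  Nat.ble (l1R 11 ((restR D).getD i (MP.zero 11))) c

/-- The number of slices is as listed. -/
noncomputable def rateLen (D : Data) (cs : List ℕ) : Bool :=
  Nat.ble (restR D).length cs.length && Nat.blt cs.sum D.er

theorem l1_le_of_slices : ∀ (p : R12) (cs : List ℕ), p.length ≤ cs.length →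
    (∀ i < cs.length, MP.l1 11 (p.getD i (MP.zero 11)) ≤ cs.getD i 0) →
    MP.l1 12 p ≤ cs.sum
  | [], _, _, _ => Nat.zero_le _
  | a :: p, [], h, _ => absurd h (by simp)
  | a :: p, c :: cs, h, hs => by
    have h0 : MP.l1 11 a ≤ c := by simpa using hs 0 (by simp)
    have h1 := l1_le_of_slices p cs (by simpa using h) fun i hi => by
      simpa using hs (i + 1) (by simpa using hi)
    rw [List.sum_cons]
    exact Nat.add_le_add h0 h1

theorem checkRate_of_slices {D : Data} (cs : List ℕ) (hlen : rateLen D cs = true)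
    (hs : ∀ i < cs.length, rateSlice D i (cs.getD i 0) = true) : D.checkRate = true := by
  simp only [rateLen, Bool.and_eq_true] at hlen
  have h := l1_le_of_slices (restR D) cs (Nat.le_of_ble_eq_true hlen.1) fun i hi => by
    have := Nat.le_of_ble_eq_true (hs i hi)
    rwa [l1R_eq] at this
  rw [restR_eq] at h
  exact Nat.ble_eq_true_of_le
    (Nat.lt_of_le_of_lt h (Nat.le_of_ble_eq_true hlen.2))

end Vale.Agent.P142K.Fast
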