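import Mathlib
import Vale.Agent.P142J.Checker
import Vale.Agent.P142K.Defs

/-!
# Checking a sum of squares certificate on six coefficients

The real variables are `(re, im)` of `b0 / 2, b1, …, b5`, the outermost first. A certificate gives
`P`, `Q` and factors `L` of the Gram matrices `L Lᵀ`; what is left of the identity must have small
`ℓ¹` norm.
-/

namespace Vale.Agent.P142K

open Complex Finset
open Vale.Agent.P142J (MP addE dotL lift)

/-- Polynomials in all twelve variables. -/
abbrev R12 := MP 12

/-- Complex polynomials, as pairs. -/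
abbrev C12 := R12 × R12

/-- The rows of a factor, with their monomials. -/
abbrev Rows := List (List ℕ × List ℤ)

/-- Sum. -/
def cadd (a b : C12) : C12 := (MP.add 12 a.1 b.1, MP.add 12 a.2 b.2)

/-- Integer multiple. -/
def csmul (k : ℤ) (a : C12) : C12 := (MP.smul k 12 a.1, MP.smul k 12 a.2)

/-- Product. -/
def cmul (a b : C12) : C12 :=
  (MP.add 12 (MP.mul 12 a.1 b.1) (MP.smul (-1) 12 (MP.mul 12 a.2 b.2)),
    MP.add 12 (MP.mul 12 a.1 b.2) (MP.mul 12 a.2 b.1))

/-- A constant. -/
def cconst (k : ℤ) : C12 := (MP.const k 12, MP.zero 12)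

/-- The imaginary unit times a polynomial. -/
def cI (a : C12) : C12 := (MP.smul (-1) 12 a.2, a.1)

/-- Squared modulus. -/
def cnorm (a : C12) : R12 := MP.add 12 (MP.mul 12 a.1 a.1) (MP.mul 12 a.2 a.2)

/-- The jet number `k`, the first one halved. -/
def pa (k : ℕ) : C12 := (MP.var (11 - 2 * k) 12, MP.var (10 - 2 * k) 12)

/-- Four times the radial directions. -/
def pR : List C12 :=
  [cadd (cconst 1) (cadd (csmul 3 (pa 1)) (csmul (-4) (cmul (pa 0) (pa 0)))),
    csmul 8 (pa 2),
    cadd (csmul 10 (pa 3)) (cadd (csmul (-2) (pa 1)) (csmul 2 (cmul (pa 1) (pa 1)))),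
    cadd (csmul 12 (pa 4)) (cadd (csmul (-4) (pa 2)) (csmul 4 (cmul (pa 1) (pa 2)))),
    cadd (csmul 14 (pa 5)) (cadd (csmul (-6) (pa 3))
      (cadd (csmul 4 (cmul (pa 1) (pa 3))) (csmul 2 (cmul (pa 2) (pa 2)))))]

/-- Four times the angular directions at radius one. -/
def pT : List C12 :=
  [cI (cadd (cconst (-1)) (cadd (csmul 3 (pa 1))
      (cadd (csmul (-4) (cmul (pa 0) (pa 0))) (csmul 4 (pa 0))))),
    cI (cadd (csmul 8 (pa 2)) (csmul 8 (pa 1))),
    cI (cadd (csmul 10 (pa 3)) (cadd (csmul 2 (pa 1))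
      (cadd (csmul 2 (cmul (pa 1) (pa 1))) (csmul 12 (pa 2))))),
    cI (cadd (csmul 12 (pa 4)) (cadd (csmul 4 (pa 2))
      (cadd (csmul 4 (cmul (pa 1) (pa 2))) (csmul 16 (pa 3))))),
    cI (cadd (csmul 14 (pa 5)) (cadd (csmul 6 (pa 3)) (cadd (csmul 4 (cmul (pa 1) (pa 3)))
      (cadd (csmul 2 (cmul (pa 2) (pa 2))) (csmul 20 (pa 4))))))]

/-- Six times the Grunsky coefficients. -/
def pC : List C12 :=
  [csmul 6 (pa 1), csmul 6 (pa 2), csmul 6 (pa 3),
    cadd (csmul 6 (pa 3)) (csmul 3 (cmul (pa 1) (pa 1))),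
    cadd (csmul 6 (pa 4)) (csmul 6 (cmul (pa 1) (pa 2))),
    cadd (csmul 6 (pa 5)) (cadd (csmul 6 (cmul (pa 1) (pa 3)))
      (cadd (csmul 6 (cmul (pa 2) (pa 2))) (csmul 2 (cmul (pa 1) (cmul (pa 1) (pa 1))))))]

/-- The nonnegative functions on the body that may multiply a square. -/
def weight : ℕ → R12
  | 1 => MP.add 12 (MP.const 1 12) (MP.smul (-1) 12 (MP.add 12 (cnorm (pa 1))
      (MP.add 12 (MP.smul 2 12 (cnorm (pa 2))) (MP.add 12 (MP.smul 3 12 (cnorm (pa 3)))
        (MP.add 12 (MP.smul 4 12 (cnorm (pa 4))) (MP.smul 5 12 (cnorm (pa 5))))))))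
  | 2 => MP.add 12 (MP.const 1 12) (MP.smul (-1) 12 (cnorm (pa 0)))
  | 3 => MP.add 12 (MP.const 1 12) (MP.smul (-1) 12 (MP.add 12 (cnorm (pa 1))
      (MP.add 12 (MP.smul 2 12 (cnorm (pa 2))) (MP.add 12 (MP.smul 3 12 (cnorm (pa 3)))
        (MP.smul 4 12 (cnorm (pa 4)))))))
  | _ => MP.const 1 12

/-- Add monomials times a common factor, with the given coefficients. -/
def addRow (k : ℤ) (e : List ℕ) : Rows → List ℤ → R12 → R12
  | q :: rest, d :: ds, acc => MP.addMono 12 (addE e q.1) (Int.mul k d) (addRow k e rest ds acc)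
  | _, _, acc => acc

/-- The inner products of a row with the rows of a list, one after another. -/
def dots (r : List ℤ) : Rows → List ℤ
  | [] => []
  | q :: rest => dotL r q.2 :: dots r rest

/-- Two columns packed into one number each. -/
def addCols : List ℤ → List ℤ → List ℤ
  | [], C => C.map (Int.mul 21267647932558653966460912964485513216)
  | a :: r, [] => a :: r
  | a :: r, c :: C => Int.add a (Int.mul 21267647932558653966460912964485513216 c) :: addCols r C

/-- The columns of a factor, each packed into one number. -/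
def cols : Rows → List ℤ
  | [] => []
  | p :: rest => addCols p.2 (cols rest)

/-- The shift that makes the digits nonnegative. -/
def offs : Rows → ℕ
  | [] => 0
  | _ :: rest => Nat.add 10633823966279326983230456482242756608 (Nat.mul 21267647932558653966460912964485513216 (offs rest))

/-- The digits of a packed number. -/
def digs : Rows → ℕ → List ℤ
  | [], _ => []
  | _ :: rest, z => Int.subNatNat (Nat.mod z 21267647932558653966460912964485513216) 10633823966279326983230456482242756608 :: digs rest (Nat.div z 21267647932558653966460912964485513216)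

/-- The entries of a vector are small. -/
def smallVec : List ℤ → Bool
  | [] => true
  | x :: rest => Nat.ble (Int.natAbs x) 72057594037927936 && smallVec rest

/-- The entries of a factor are small and its rows short. -/
def smallRows : Rows → Bool
  | [] => true
  | q :: rest => Nat.ble q.2.length 1024 && smallVec q.2 && smallRows rest

/-- The inner products of a row with the rows of a list, through packed numbers when possible. -/
def fastDots (r : List ℤ) (B : Rows) (ok : Bool) : List ℤ :=
  match ok with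
  | true => digs B (Int.toNat (Int.add (dotL r (cols B)) (Int.ofNat (offs B))))
  | false => dots r B

/-- The form `∑ (A column) * (B column)`, row after row. -/
def crossAux (ok : Bool) : Rows → Rows → R12
  | [], _ => MP.zero 12
  | p :: rest, B => addRow 1 p.1 B (fastDots p.2 B ok) (crossAux ok rest B)

/-- The form `∑ (A column) * (B column)`. -/
def cross (A B : Rows) : R12 := crossAux (smallRows A && smallRows B) A B

/-- The form `∑ (A column)^2 + 2 (A column) * (B column)`, using symmetry. -/
def triAux (ok : Bool) : Rows → Rows → R12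
  | [], _ => MP.zero 12
  | p :: rest, B => MP.addMono 12 (addE p.1 p.1) (dotL p.2 p.2)
      (addRow 2 p.1 (rest ++ B) (fastDots p.2 (rest ++ B) ok) (triAux ok rest B))

/-- The form `∑ (A column)^2 + 2 (A column) * (B column)`. -/
def tri (A B : Rows) : R12 := triAux (smallRows (A ++ B)) A B

/-- A diagonal part of the Grunsky form. -/
def diag (c : ℤ) (C : C12) (X Y : Rows) : R12 :=
  MP.add 12 (MP.mul 12 (MP.add 12 (MP.const c 12) (MP.smul (-1) 12 C.1)) (tri X []))
    (MP.add 12 (MP.mul 12 (MP.add 12 (MP.const c 12) C.1) (tri Y []))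
      (MP.mul 12 (MP.smul 2 12 C.2) (cross X Y)))

/-- A part of the Grunsky form off the diagonal. -/
def offd (C : C12) (X Y U V : Rows) : R12 :=
  MP.smul 2 12 (MP.add 12
    (MP.mul 12 C.1 (MP.add 12 (cross Y V) (MP.smul (-1) 12 (cross X U))))
    (MP.mul 12 C.2 (MP.add 12 (cross X V) (cross Y U))))

/-- The Grunsky form on the columns of six factors, in six parts. -/
def mparts (l : List Rows) : List R12 :=
  [diag 6 (pC.getD 0 (cconst 0)) (l.getD 0 []) (l.getD 1 []),
    diag 3 (pC.getD 3 (cconst 0)) (l.getD 2 []) (l.getD 3 []),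
    diag 2 (pC.getD 5 (cconst 0)) (l.getD 4 []) (l.getD 5 []),
    offd (pC.getD 1 (cconst 0)) (l.getD 0 []) (l.getD 1 []) (l.getD 2 []) (l.getD 3 []),
    offd (pC.getD 2 (cconst 0)) (l.getD 0 []) (l.getD 1 []) (l.getD 4 []) (l.getD 5 []),
    offd (pC.getD 4 (cconst 0)) (l.getD 2 []) (l.getD 3 []) (l.getD 4 []) (l.getD 5 [])]

/-- A weighted square of a factor given in chunks, in one part per chunk. -/
def sparts (w : R12) : List Rows → List R12
  | [] => []
  | c :: rest => MP.mul 12 w (tri c rest.flatten) :: sparts w rest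

/-- A weighted sum of squares, with its expansion in monomials, part by part. -/
structure Block where
  /-- The number of the weight; `4` stands for the Grunsky form. -/
  g : ℕ
  /-- The factor, in chunks or by components. -/
  rows : List Rows
  /-- The expansions of the parts. -/
  mons : List R12

/-- The parts of the product of a weight and a factor. -/
def partsOf : ℕ → List Rows → List R12
  | 4, l => mparts l
  | g, l => sparts (weight g) l

/-- The parts of the product of a block. -/
def Block.parts (b : Block) : List R12 := partsOf b.g b.rows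

/-- The expansion of one part is right. -/
def partOk (g : ℕ) (l : List Rows) (j : ℕ) (m : R12) : Bool :=
  Nat.ble (MP.l1 12 (MP.add 12 ((partsOf g l).getD j (MP.zero 12)) (MP.smul (-1) 12 m))) 0

/-- A polynomial in the ten variables of the first five jets, from its monomials. -/
def ofList : List (List ℕ × ℤ) → MP 10
  | [] => MP.zero 10
  | (e, k) :: rest => MP.addMono 10 e k (ofList rest)

/-- A part of the expansion is right. -/
def Block.checkPart (b : Block) (j : ℕ) : Bool :=
  partOk b.g b.rows j (b.mons.getD j (MP.zero 12))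

/-- A sum of polynomials. -/
def psum : List R12 → R12
  | [] => MP.zero 12
  | a :: rest => MP.add 12 a (psum rest)

/-- The expansion of a block. -/
def Block.total (b : Block) : R12 := psum b.mons

/-- A sum of expanded blocks. -/
def squares : List Block → R12
  | [] => MP.zero 12
  | b :: rest => MP.add 12 b.total (squares rest)

/-- Directional derivative of a polynomial of ten variables. -/
def dirD (p : MP 10) : ℕ → List C12 → R12
  | _, [] => MP.zero 12
  | k, d :: rest => MP.add 12
      (MP.add 12 (MP.mul 12 (lift 10 (MP.pdv (9 - 2 * k) 10 p)) d.1)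
        (MP.mul 12 (lift 10 (MP.pdv (8 - 2 * k) 10 p)) d.2))
      (dirD p (k + 1) rest)

/-- The data of a certificate: `t = -tn / den`, `α = an / den`. -/
structure Data where
  /-- Numerator of `-t`. -/
  tn : ℤ
  /-- Common denominator. -/
  den : ℕ
  /-- Numerator of `α`. -/
  an : ℤ
  /-- The monomials of `P`. -/
  p : List (List ℕ × ℤ)
  /-- The monomials of `Q`. -/
  q : List (List ℕ × ℤ)
  /-- The squares below the rate. -/
  sr : List Block
  /-- The squares below `P`. -/
  sp : List Block
  /-- The room left for the rate. -/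
  er : ℕ
  /-- The room left for `P`. -/
  ep : ℕ

/-- `4 den` times the rate at radius one. -/
def ratePoly (D : Data) : R12 :=
  MP.add 12
    (MP.mul 12 (MP.add 12 (MP.const (4 * D.an + 4 * D.tn) 12)
      (MP.smul (-(8 * D.tn)) 12 (MP.var 11 12))) (lift 10 (ofList D.p)))
    (MP.add 12 (MP.smul (-(D.den : ℤ)) 12 (dirD (ofList D.p) 0 pR))
      (MP.add 12 (MP.smul (8 * D.tn) 12 (MP.mul 12 (MP.var 10 12) (lift 10 (ofList D.q))))
        (MP.smul (-(D.den : ℤ)) 12 (dirD (ofList D.q) 0 pT))))

/-- The rate part of the certificate. -/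
def Data.checkRate (D : Data) : Bool :=
  Nat.blt (MP.l1 12 (MP.add 12 (ratePoly D)
    (MP.add 12 (MP.smul (-1) 12 (squares D.sr)) (MP.const (-(D.er : ℤ)) 12)))) D.er

/-- The positivity part of the certificate. -/
def Data.checkPos (D : Data) : Bool :=
  Nat.blt (MP.l1 12 (MP.add 12 (lift 10 (ofList D.p))
    (MP.add 12 (MP.smul (-1) 12 (squares D.sp)) (MP.const (-(D.ep : ℤ)) 12)))) D.ep

/-- The projection to a jet. -/
noncomputable def proj5 (k : Fin 5) : St →L[ℝ] ℂ := ContinuousLinearMap.proj k

/-- The coordinates of the first five jets. -/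
noncomputable def coord : ℕ → (St →L[ℝ] ℝ)
  | 9 => (1 / 2 : ℝ) • reCLM.comp (proj5 0)
  | 8 => (1 / 2 : ℝ) • imCLM.comp (proj5 0)
  | 7 => reCLM.comp (proj5 1)
  | 6 => imCLM.comp (proj5 1)
  | 5 => reCLM.comp (proj5 2)
  | 4 => imCLM.comp (proj5 2)
  | 3 => reCLM.comp (proj5 3)
  | 2 => imCLM.comp (proj5 3)
  | 1 => reCLM.comp (proj5 4)
  | 0 => imCLM.comp (proj5 4)
  | _ => 0

/-- The function of a polynomial in the jets. -/
noncomputable def polyFun (p : List (List ℕ × ℤ)) (b : St) : ℝ :=
  MP.eval 10 (fun i => coord i b) (ofList p)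

/-- The twelve coordinates of a point of the body. -/
noncomputable def coord12 (b : Fin 6 → ℂ) : ℕ → ℝ
  | 11 => (b 0).re / 2
  | 10 => (b 0).im / 2
  | 9 => (b 1).re
  | 8 => (b 1).im
  | 7 => (b 2).re
  | 6 => (b 2).im
  | 5 => (b 3).re
  | 4 => (b 3).im
  | 3 => (b 4).re
  | 2 => (b 4).im
  | 1 => (b 5).re
  | 0 => (b 5).im
  | _ => 0

/-- The value of a complex polynomial. -/
noncomputable def cval (v : ℕ → ℝ) (a : C12) : ℂ := ⟨MP.eval 12 v a.1, MP.eval 12 v a.2⟩

/-- The linear form number `k` of a factor. -/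
noncomputable def linForm (v : ℕ → ℝ) (k : ℕ) : Rows → ℝ
  | [] => 0
  | (e, r) :: rest => MP.monoEval 12 v e * (r.getD k 0 : ℤ) + linForm v k rest

theorem dotL_addCols : ∀ a r C : List ℤ,
    dotL a (addCols r C) = dotL a r + 21267647932558653966460912964485513216 * dotL a C
  | [], r, C => by cases r <;> cases C <;> simp [dotL]
  | x :: a, [], [] => by simp [addCols, dotL]
  | x :: a, [], c :: C => by
    have h := dotL_addCols a [] C
    simp only [addCols, List.map_cons] at h ⊢
    rw [show dotL (x :: a) (Int.mul 21267647932558653966460912964485513216 c :: C.map (Int.mul 21267647932558653966460912964485513216)) =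
      x * (21267647932558653966460912964485513216 * c) + dotL a (C.map (Int.mul 21267647932558653966460912964485513216)) from rfl]
    have h' : dotL a ([] : List ℤ) = 0 := by cases a <;> rfl
    have h'' : dotL (x :: a) ([] : List ℤ) = 0 := rfl
    cases C with
    | nil => simp [dotL, h', h''] at *; ring
    | cons d D =>
      simp only [addCols, List.map_cons] at h
      rw [List.map_cons, h, h', h'', show dotL (x :: a) (c :: d :: D) = x * c + dotL a (d :: D) from rfl]
      ring
  | x :: a, y :: r, [] => by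
    have h' : dotL (x :: a) ([] : List ℤ) = 0 := rfl
    simp [addCols, h']
  | x :: a, y :: r, c :: C => by
    rw [addCols, show dotL (x :: a) (Int.add y (Int.mul 21267647932558653966460912964485513216 c) :: addCols r C) =
      x * (y + 21267647932558653966460912964485513216 * c) + dotL a (addCols r C) from rfl, dotL_addCols a r C,
      show dotL (x :: a) (y :: r) = x * y + dotL a r from rfl,
      show dotL (x :: a) (c :: C) = x * c + dotL a C from rfl]
    ring

theorem abs_dotL_le : ∀ a b : List ℤ, smallVec a = true → smallVec b = true →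
    |dotL a b| ≤ (a.length : ℤ) * 5192296858534827628530496329220096
  | x :: a, y :: b, ha, hb => by
    simp only [smallVec, Bool.and_eq_true] at ha hb
    have hx : |x| ≤ 72057594037927936 := by
      rw [← Int.natCast_natAbs]; exact_mod_cast Nat.le_of_ble_eq_true ha.1
    have hy : |y| ≤ 72057594037927936 := by
      rw [← Int.natCast_natAbs]; exact_mod_cast Nat.le_of_ble_eq_true hb.1
    rw [show dotL (x :: a) (y :: b) = x * y + dotL a b from rfl, List.length_cons]
    refine (abs_add_le _ _).trans ?_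
    have := mul_le_mul hx hy (abs_nonneg _) (by norm_num)
    rw [← abs_mul] at this
    have := abs_dotL_le a b ha.2 hb.2
    push_cast
    linarith
  | [], b, _, _ => by simp [dotL]
  | x :: a, [], _, _ => by
    rw [show dotL (x :: a) ([] : List ℤ) = 0 from rfl, abs_zero]; positivity

theorem digs_pack (r : List ℤ) (hr : smallVec r = true) (hl : r.length ≤ 1024) :
    ∀ B : Rows, smallRows B = true →
      0 ≤ dotL r (cols B) + (offs B : ℤ) ∧
        digs B (Int.toNat (dotL r (cols B) + (offs B : ℤ))) = dots r B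
  | [], _ => by
    have h : dotL r ([] : List ℤ) = 0 := by cases r <;> rfl
    simp [cols, offs, digs, dots, h]
  | q :: rest, hB => by
    simp only [smallRows, Bool.and_eq_true] at hB
    obtain ⟨⟨-, hq⟩, hrest⟩ := hB
    obtain ⟨h0, ih⟩ := digs_pack r hr hl rest hrest
    have hb := abs_dotL_le r q.2 hr hq
    have hd : |dotL r q.2| < 10633823966279326983230456482242756608 := by
      refine hb.trans_lt ?_
      have : (r.length : ℤ) ≤ 1024 := by exact_mod_cast hl
      linarith
    obtain ⟨hd1, hd2⟩ := abs_lt.1 hd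
    obtain ⟨w, hw⟩ := Int.eq_ofNat_of_zero_le h0
    obtain ⟨u, hu⟩ := Int.eq_ofNat_of_zero_le (show (0 : ℤ) ≤ dotL r q.2 + 10633823966279326983230456482242756608 by linarith)
    have e : dotL r (cols (q :: rest)) + (offs (q :: rest) : ℤ) = ((u + 21267647932558653966460912964485513216 * w : ℕ) : ℤ) := by
      rw [cols, dotL_addCols, offs, show Nat.add 10633823966279326983230456482242756608 (Nat.mul 21267647932558653966460912964485513216 (offs rest)) =
        10633823966279326983230456482242756608 + 21267647932558653966460912964485513216 * offs rest from rfl]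
      push_cast
      linarith
    refine ⟨e ▸ Int.natCast_nonneg _, ?_⟩
    rw [e, Int.toNat_natCast]
    simp only [digs, dots, Int.subNatNat_eq_coe]
    have hu' : u < 21267647932558653966460912964485513216 := by omega
    rw [show Nat.mod (u + 21267647932558653966460912964485513216 * w) 21267647932558653966460912964485513216 = (u + 21267647932558653966460912964485513216 * w) % 21267647932558653966460912964485513216 from rfl,
      show Nat.div (u + 21267647932558653966460912964485513216 * w) 21267647932558653966460912964485513216 = (u + 21267647932558653966460912964485513216 * w) / 21267647932558653966460912964485513216 from rfl,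
      Nat.add_mul_mod_self_left, Nat.mod_eq_of_lt hu',
      Nat.add_mul_div_left _ _ (by norm_num : 0 < 21267647932558653966460912964485513216), Nat.div_eq_of_lt hu', Nat.zero_add,
      ← ih, hw, Int.toNat_natCast]
    congr 1
    omega

theorem fastDots_eq (r : List ℤ) (B : Rows) (ok : Bool)
    (h : ok = true → smallVec r = true ∧ r.length ≤ 1024 ∧ smallRows B = true) :
    fastDots r B ok = dots r B := by
  cases ok
  · rfl
  · obtain ⟨hr, hl, hB⟩ := h rfl
    exact (digs_pack r hr hl B hB).2

theorem smallRows_append : ∀ A B : Rows,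
    smallRows (A ++ B) = (smallRows A && smallRows B)
  | [], B => by simp [smallRows]
  | q :: rest, B => by simp [smallRows, smallRows_append rest B, Bool.and_assoc]

theorem eval_addRow (v : ℕ → ℝ) (c : ℤ) (e : List ℕ) (r : List ℤ) {N : ℕ} (hr : r.length ≤ N) :
    ∀ (B : Rows) (acc : R12), MP.eval 12 v (addRow c e B (dots r B) acc) = MP.eval 12 v acc +
      ∑ k ∈ range N, (c : ℝ) * (MP.monoEval 12 v e * (r.getD k 0 : ℤ)) * linForm v k B
  | [], acc => by simp [addRow, dots, linForm]
  | (e', r') :: rest, acc => by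
    simp only [addRow, dots, MP.eval_addMono, eval_addRow v c e r hr rest acc,
      P142J.monoEval_addE, linForm]
    rw [show ((Int.mul c (dotL r r') : ℤ) : ℝ) = c * ((dotL r r' : ℤ) : ℝ) from Int.cast_mul _ _,
      P142J.dotL_eq r r' N hr, Int.cast_sum, mul_sum, sum_mul, add_assoc, ← sum_add_distrib]
    refine congrArg _ (sum_congr rfl fun k _ => ?_)
    push_cast
    ring

theorem eval_cross (v : ℕ → ℝ) {N : ℕ} (A B : Rows) (hA : ∀ s ∈ A, s.2.length ≤ N) :
    MP.eval 12 v (cross A B) = ∑ k ∈ range N, linForm v k A * linForm v k B := by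
  unfold cross
  generalize hok : (smallRows A && smallRows B) = ok
  have h' : ok = true → smallRows A = true ∧ smallRows B = true := fun h => by
    rw [h] at hok; simpa using hok
  clear hok
  induction A with
  | nil => simp [crossAux, linForm]
  | cons p rest ih =>
    have hs : ok = true → smallVec p.2 = true ∧ p.2.length ≤ 1024 ∧ smallRows B = true :=
      fun h => by
        obtain ⟨h1, h2⟩ := h' h
        simp only [smallRows, Bool.and_eq_true] at h1
        exact ⟨h1.1.2, Nat.le_of_ble_eq_true h1.1.1, h2⟩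
    rw [crossAux, fastDots_eq _ _ _ hs, eval_addRow v 1 p.1 p.2 (hA p (by simp)),
      ih (fun s hs => hA s (List.mem_cons_of_mem _ hs)) fun h => by
        obtain ⟨h1, h2⟩ := h' h
        simp only [smallRows, Bool.and_eq_true] at h1
        exact ⟨h1.2, h2⟩, ← sum_add_distrib]
    refine sum_congr rfl fun k _ => ?_
    obtain ⟨e, r⟩ := p
    simp only [linForm]
    push_cast
    ring

theorem linForm_append (v : ℕ → ℝ) (k : ℕ) : ∀ A A' : Rows,
    linForm v k (A ++ A') = linForm v k A + linForm v k A'
  | [], A' => by simp [linForm]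
  | (e, r) :: rest, A' => by
    simp only [List.cons_append, linForm, linForm_append v k rest A']
    ring

theorem eval_tri (v : ℕ → ℝ) {N : ℕ} (A B : Rows) (hA : ∀ s ∈ A, s.2.length ≤ N) :
    MP.eval 12 v (tri A B) =
      ∑ k ∈ range N, (linForm v k A ^ 2 + 2 * linForm v k A * linForm v k B) := by
  unfold tri
  generalize hok : smallRows (A ++ B) = ok
  have h' : ok = true → smallRows (A ++ B) = true := fun h => hok.trans h
  clear hok
  induction A with
  | nil => simp [triAux, linForm]
  | cons p rest ih =>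
    have h1 : ok = true → smallRows (p :: (rest ++ B)) = true := h'
    have hs : ok = true → smallVec p.2 = true ∧ p.2.length ≤ 1024 ∧
        smallRows (rest ++ B) = true := fun h => by
      have := h1 h
      simp only [smallRows, Bool.and_eq_true] at this
      exact ⟨this.1.2, Nat.le_of_ble_eq_true this.1.1, this.2⟩
    have hp := hA p (by simp)
    rw [triAux, MP.eval_addMono, fastDots_eq _ _ _ hs, eval_addRow v 2 p.1 p.2 hp,
      ih (fun s hs => hA s (List.mem_cons_of_mem _ hs)) fun h => (hs h).2.2,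
      P142J.monoEval_addE, P142J.dotL_eq p.2 p.2 N hp, Int.cast_sum, sum_mul, ← sum_add_distrib,
      ← sum_add_distrib]
    refine sum_congr rfl fun k _ => ?_
    obtain ⟨e, r⟩ := p
    simp only [linForm, linForm_append]
    push_cast
    ring

/-- The Grunsky form on six factors. -/
def msum (l : List Rows) : R12 := (mparts l).foldr (MP.add 12) (MP.zero 12)

theorem psum_mparts (b : Fin 6 → ℂ) (l : List Rows) :
    MP.eval 12 (coord12 b) (psum (mparts l)) = MP.eval 12 (coord12 b) (msum l) := rfl

theorem cval_cadd (v : ℕ → ℝ) (a b : C12) : cval v (cadd a b) = cval v a + cval v b := by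
  apply Complex.ext <;> simp [cval, cadd, MP.eval_add]

theorem cval_csmul (v : ℕ → ℝ) (k : ℤ) (a : C12) : cval v (csmul k a) = (k : ℂ) * cval v a := by
  apply Complex.ext <;> simp [cval, csmul, MP.eval_smul]

theorem cval_cmul (v : ℕ → ℝ) (a b : C12) : cval v (cmul a b) = cval v a * cval v b := by
  apply Complex.ext <;>
    simp [cval, cmul, MP.eval_add, MP.eval_mul, MP.eval_smul, Complex.mul_re, Complex.mul_im] <;>
    ring

theorem cval_cI (v : ℕ → ℝ) (a : C12) : cval v (cI a) = I * cval v a := by
  apply Complex.ext <;> simp [cval, cI, MP.eval_smul]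

theorem cval_cconst (v : ℕ → ℝ) (k : ℤ) : cval v (cconst k) = (k : ℂ) := by
  apply Complex.ext <;> simp [cval, cconst, MP.eval_const]

theorem eval_cnorm (v : ℕ → ℝ) (a : C12) : MP.eval 12 v (cnorm a) = ‖cval v a‖ ^ 2 := by
  rw [Complex.sq_norm, Complex.normSq_apply]
  simp [cval, cnorm, MP.eval_add, MP.eval_mul]

variable {b : Fin 6 → ℂ}

theorem cval_vars (b : Fin 6 → ℂ) : cval (coord12 b) (pa 0) = b 0 / 2 ∧
    cval (coord12 b) (pa 1) = b 1 ∧ cval (coord12 b) (pa 2) = b 2 ∧
    cval (coord12 b) (pa 3) = b 3 ∧ cval (coord12 b) (pa 4) = b 4 ∧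
    cval (coord12 b) (pa 5) = b 5 := by
  refine ⟨?_, ?_, ?_, ?_, ?_, ?_⟩ <;> apply Complex.ext <;>
    simp [cval, pa, MP.eval_var, coord12]

theorem weight_nonneg (hb : Body b) (g : ℕ) : 0 ≤ MP.eval 12 (coord12 b) (weight g) := by
  obtain ⟨e0, e1, e2, e3, e4, e5⟩ := cval_vars b
  have h1 := hb.area
  have h5 : 0 ≤ ‖b 5‖ ^ 2 := sq_nonneg _
  match g with
  | 1 =>
    simp [weight, MP.eval_add, MP.eval_smul, MP.eval_const, eval_cnorm, e1, e2, e3, e4, e5]
    linarith
  | 2 =>
    simp only [weight, MP.eval_add, MP.eval_smul, MP.eval_const, eval_cnorm, e0]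
    rw [norm_div, Complex.norm_two]
    push_cast
    nlinarith [hb.disc, norm_nonneg (b 0)]
  | 3 =>
    simp [weight, MP.eval_add, MP.eval_smul, MP.eval_const, eval_cnorm, e1, e2, e3, e4]
    linarith
  | 0 => simp [weight, MP.eval_const]
  | _ + 4 => simp [weight, MP.eval_const]

theorem gform_le (hb : Body b) (x1 y1 x2 y2 x3 y3 : ℝ) :
    6 * (gform b ⟨x1, y1⟩ ⟨x2, y2⟩ ⟨x3, y3⟩).re ≤
      6 * (x1 ^ 2 + y1 ^ 2) + 3 * (x2 ^ 2 + y2 ^ 2) + 2 * (x3 ^ 2 + y3 ^ 2) := by
  have h := (Complex.re_le_norm _).trans (hb.grunsky ⟨x1, y1⟩ ⟨x2, y2⟩ ⟨x3, y3⟩)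
  simp only [Complex.sq_norm, Complex.normSq_apply] at h
  linarith

theorem mparts_nonneg (hb : Body b) (l : List Rows) :
    0 ≤ MP.eval 12 (coord12 b) (msum l) := by
  obtain ⟨N, hN⟩ : ∃ N, ∀ j, ∀ s ∈ l.getD j [], s.2.length ≤ N := by
    refine ⟨((l.flatten).map fun s => s.2.length).sum, fun j s hs =>
      List.le_sum_of_mem (List.mem_map.2 ⟨s, ?_, rfl⟩)⟩
    rw [List.getD_eq_getElem?_getD] at hs
    rcases hj : l[j]? with - | x
    · simp [hj] at hs
    · rw [hj, Option.getD_some] at hs
      exact List.mem_flatten.2 ⟨x, List.mem_of_getElem? hj, hs⟩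
  set L : ℕ → ℕ → ℝ := fun j k => linForm (coord12 b) k (l.getD j []) with hL
  obtain ⟨e0, e1, e2, e3, e4, e5⟩ := cval_vars b
  have hv : ∀ i < 6, cval (coord12 b) (pC.getD i (cconst 0)) = 6 *
      [b 1, b 2, b 3, b 3 + b 1 ^ 2 / 2, b 4 + b 1 * b 2,
        b 5 + b 1 * b 3 + b 2 ^ 2 + b 1 ^ 3 / 3].getD i 0 := by
    intro i hi
    interval_cases i <;>
      simp [pC, cval_cadd, cval_csmul, cval_cmul, e1, e2, e3, e4, e5] <;> ring
  have hre : ∀ (a : C12), MP.eval 12 (coord12 b) a.1 = (cval (coord12 b) a).re ∧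
      MP.eval 12 (coord12 b) a.2 = (cval (coord12 b) a).im := fun a => ⟨rfl, rfl⟩
  have heq : MP.eval 12 (coord12 b) (msum l) = ∑ k ∈ range N,
      (6 * (L 0 k ^ 2 + L 1 k ^ 2) + 3 * (L 2 k ^ 2 + L 3 k ^ 2) + 2 * (L 4 k ^ 2 + L 5 k ^ 2) -
        6 * (gform b ⟨L 0 k, L 1 k⟩ ⟨L 2 k, L 3 k⟩ ⟨L 4 k, L 5 k⟩).re) := by
    simp only [msum, mparts, List.foldr, diag, offd, MP.eval_add, MP.eval_mul, MP.eval_smul, MP.eval_const,
      eval_cross (coord12 b) (l.getD 0 []) _ (hN 0), eval_cross (coord12 b) (l.getD 1 []) _ (hN 1),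
      eval_cross (coord12 b) (l.getD 2 []) _ (hN 2), eval_cross (coord12 b) (l.getD 3 []) _ (hN 3),
      eval_cross (coord12 b) (l.getD 4 []) _ (hN 4), eval_cross (coord12 b) (l.getD 5 []) _ (hN 5), eval_tri (coord12 b) (l.getD 0 []) _ (hN 0),
      eval_tri (coord12 b) (l.getD 1 []) _ (hN 1), eval_tri (coord12 b) (l.getD 2 []) _ (hN 2),
      eval_tri (coord12 b) (l.getD 3 []) _ (hN 3), eval_tri (coord12 b) (l.getD 4 []) _ (hN 4),
      eval_tri (coord12 b) (l.getD 5 []) _ (hN 5), MP.eval_zero, add_zero,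
      (hre _).1, (hre _).2, hv 0 (by norm_num), hv 1 (by norm_num), hv 2 (by norm_num),
      hv 3 (by norm_num), hv 4 (by norm_num), hv 5 (by norm_num), mul_sum, mul_add,
      ← sum_add_distrib]
    refine sum_congr rfl fun k _ => ?_
    simp [gform, hL, linForm, sq, Complex.mul_re, Complex.mul_im]
    ring
  rw [heq]
  exact sum_nonneg fun k _ => sub_nonneg.2
    (gform_le hb (L 0 k) (L 1 k) (L 2 k) (L 3 k) (L 4 k) (L 5 k))

theorem eval_psum (v : ℕ → ℝ) : ∀ l : List R12,
    MP.eval 12 v (psum l) = (l.map (MP.eval 12 v)).sum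
  | [] => by simp [psum]
  | a :: rest => by
    rw [psum, MP.eval_add, eval_psum v rest, List.map_cons, List.sum_cons]

theorem eval_sparts (v : ℕ → ℝ) (w : R12) {N : ℕ} : ∀ l : List Rows,
    (∀ s ∈ l.flatten, s.2.length ≤ N) → MP.eval 12 v (psum (sparts w l)) =
      MP.eval 12 v w * ∑ k ∈ range N, linForm v k l.flatten ^ 2
  | [], _ => by simp [sparts, psum, linForm]
  | c :: rest, h => by
    rw [sparts, psum, MP.eval_add, MP.eval_mul,
      eval_sparts v w rest fun s hs => h s (by simp [List.flatten_cons, hs]),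
      eval_tri v c rest.flatten fun s hs => h s (by simp [List.flatten_cons, hs]), ← mul_add,
      ← sum_add_distrib]
    refine congrArg _ (sum_congr rfl fun k _ => ?_)
    rw [List.flatten_cons, linForm_append]
    ring

theorem parts_nonneg (hb : Body b) (B : Block) : 0 ≤ MP.eval 12 (coord12 b) (psum B.parts) := by
  unfold Block.parts partsOf
  split
  · exact (psum_mparts b B.rows).symm ▸ mparts_nonneg hb _
  · rw [eval_sparts (coord12 b) _ (N := ((B.rows.flatten).map fun s => s.2.length).sum) _
      fun s hs => List.le_sum_of_mem (List.mem_map.2 ⟨s, hs, rfl⟩)]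
    exact mul_nonneg (weight_nonneg hb _) (sum_nonneg fun k _ => sq_nonneg _)

theorem coord12_le (hb : Body b) (i : ℕ) : |coord12 b i| ≤ 1 := by
  have h1 := hb.area
  have k1 := sq_nonneg ‖b 1‖; have k2 := sq_nonneg ‖b 2‖; have k3 := sq_nonneg ‖b 3‖
  have k4 := sq_nonneg ‖b 4‖; have k5 := sq_nonneg ‖b 5‖
  have key : ∀ z : ℂ, ‖z‖ ^ 2 ≤ 1 → |z.re| ≤ 1 ∧ |z.im| ≤ 1 := fun z hz => by
    have h' : ‖z‖ ≤ 1 := by nlinarith [norm_nonneg z]
    exact ⟨(Complex.abs_re_le_norm _).trans h', (Complex.abs_im_le_norm _).trans h'⟩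
  have r0 := (Complex.abs_re_le_norm (b 0)).trans hb.disc
  have i0 := (Complex.abs_im_le_norm (b 0)).trans hb.disc
  match i with
  | 11 => simp only [coord12, abs_div, abs_two]; linarith
  | 10 => simp only [coord12, abs_div, abs_two]; linarith
  | 9 => exact (key (b 1) (by linarith)).1
  | 8 => exact (key (b 1) (by linarith)).2
  | 7 => exact (key (b 2) (by linarith)).1
  | 6 => exact (key (b 2) (by linarith)).2
  | 5 => exact (key (b 3) (by linarith)).1
  | 4 => exact (key (b 3) (by linarith)).2
  | 3 => exact (key (b 4) (by linarith)).1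
  | 2 => exact (key (b 4) (by linarith)).2
  | 1 => exact (key (b 5) (by linarith)).1
  | 0 => exact (key (b 5) (by linarith)).2
  | _ + 12 => simp [coord12]

/-- The number of parts matches, and every part is right. -/
def Block.Ok (B : Block) : Prop :=
  B.mons.length = B.parts.length ∧ ∀ j < B.parts.length, B.checkPart j = true

theorem eval_total (hb : Body b) : ∀ (P M : List R12), M.length = P.length →
    (∀ j < P.length, Nat.ble (MP.l1 12 (MP.add 12 (P.getD j (MP.zero 12))
      (MP.smul (-1) 12 (M.getD j (MP.zero 12))))) 0 = true) →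
    MP.eval 12 (coord12 b) (psum M) = MP.eval 12 (coord12 b) (psum P)
  | [], [], _, _ => rfl
  | a :: P, m :: M, hl, h => by
    have h0 := Nat.le_of_ble_eq_true (h 0 (by simp))
    have h1 := MP.abs_eval_le (coord12 b) (coord12_le hb) 12
      (MP.add 12 a (MP.smul (-1) 12 m))
    simp only [List.getD_cons_zero] at h0
    rw [Nat.le_zero.1 h0, Nat.cast_zero, abs_nonpos_iff] at h1
    simp [MP.eval_add, MP.eval_smul] at h1
    rw [psum, psum, MP.eval_add, MP.eval_add,
      eval_total hb P M (by simpa using hl) fun j hj => by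
        simpa using h (j + 1) (by simp; omega)]
    linarith

theorem squares_nonneg (hb : Body b) : ∀ l : List Block,
    (∀ B ∈ l, B.Ok) → 0 ≤ MP.eval 12 (coord12 b) (squares l)
  | [], _ => by simp [squares]
  | B :: rest, h => by
    obtain ⟨hl, hc⟩ := h B (by simp)
    rw [squares, MP.eval_add]
    refine add_nonneg ?_ (squares_nonneg hb rest fun x hx => h x (List.mem_cons_of_mem _ hx))
    rw [Block.total, eval_total hb B.parts B.mons hl hc]
    exact parts_nonneg hb B

theorem coord12_shift (b : Fin 6 → ℂ) : ∀ i < 10, coord12 b (i + 2) = coord i (low b) := by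
  intro i hi
  interval_cases i <;> simp [coord12, coord, proj5, low] <;> ring

theorem eval_lift_coord (b : Fin 6 → ℂ) (p : MP 10) :
    MP.eval 12 (coord12 b) (lift 10 p) = MP.eval 10 (fun i => coord i (low b)) p :=
  (P142J.eval_lift _ 10 p).trans (P142J.eval_congr 10 _ _ (coord12_shift b) p)

theorem contDiff_polyFun (p : List (List ℕ × ℤ)) : ContDiff ℝ 1 (polyFun p) := by
  have h : ∀ (n : ℕ) (q : MP n), ContDiff ℝ 1 fun b => MP.eval n (fun i => coord i b) q := by
    intro n
    induction n with
    | zero => exact fun q => contDiff_const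
    | succ n ih =>
      intro q
      induction q with
      | nil => exact contDiff_const
      | cons a q ihq => exact (ih a).add ((coord n).contDiff.mul ihq)
  exact h 10 _

theorem fderiv_polyFun (p : List (List ℕ × ℤ)) (x d : St) :
    fderiv ℝ (polyFun p) x d =
      ∑ i ∈ range 10, MP.eval 10 (fun j => coord j x) (MP.pdv i 10 (ofList p)) * coord i d := by
  rw [show fderiv ℝ (polyFun p) x = _ from (MP.hasFDerivAt_eval coord x 10 (ofList p)).fderiv]
  simp

theorem eval_dirD (b : Fin 6 → ℂ) (p : List (List ℕ × ℤ)) (d0 d1 d2 d3 d4 : C12) (w : St)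
    (h0 : cval (coord12 b) d0 = 2 * w 0) (h1 : cval (coord12 b) d1 = 4 * w 1)
    (h2 : cval (coord12 b) d2 = 4 * w 2) (h3 : cval (coord12 b) d3 = 4 * w 3)
    (h4 : cval (coord12 b) d4 = 4 * w 4) :
    MP.eval 12 (coord12 b) (dirD (ofList p) 0 [d0, d1, d2, d3, d4]) =
      4 * fderiv ℝ (polyFun p) (low b) w := by
  have a0 := congrArg Complex.re h0
  have a0' := congrArg Complex.im h0
  have a1 := congrArg Complex.re h1
  have a1' := congrArg Complex.im h1
  have a2 := congrArg Complex.re h2
  have a2' := congrArg Complex.im h2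
  have a3 := congrArg Complex.re h3
  have a3' := congrArg Complex.im h3
  have a4 := congrArg Complex.re h4
  have a4' := congrArg Complex.im h4
  simp [cval] at a0 a0' a1 a1' a2 a2' a3 a3' a4 a4'
  simp [dirD, MP.eval_add, MP.eval_mul, eval_lift_coord, fderiv_polyFun, sum_range_succ, coord,
    proj5, a0, a0', a1, a1', a2, a2', a3, a3', a4, a4']
  ring

theorem eval_ratePoly (b : Fin 6 → ℂ) (D : Data) (hden : 0 < D.den) :
    MP.eval 12 (coord12 b) (ratePoly D) =
      4 * D.den * rate (-(D.tn : ℝ) / D.den) ((D.an : ℝ) / D.den) (polyFun D.p) (polyFun D.q) 1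
        b := by
  obtain ⟨e0, e1, e2, e3, e4, e5⟩ := cval_vars b
  have hd : (D.den : ℝ) ≠ 0 := Nat.cast_ne_zero.2 hden.ne'
  have hR : MP.eval 12 (coord12 b) (dirD (ofList D.p) 0 pR) =
      4 * fderiv ℝ (polyFun D.p) (low b) (dR b) := by
    refine eval_dirD b D.p _ _ _ _ _ _ ?_ ?_ ?_ ?_ ?_ <;>
      simp [dR, cval_cadd, cval_csmul, cval_cmul, cval_cconst, e0, e1, e2, e3, e4, e5] <;> ring
  have hT : MP.eval 12 (coord12 b) (dirD (ofList D.q) 0 pT) =
      4 * fderiv ℝ (polyFun D.q) (low b) (dT 1 b) := by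
    refine eval_dirD b D.q _ _ _ _ _ _ ?_ ?_ ?_ ?_ ?_ <;>
      simp [dT, cval_cadd, cval_csmul, cval_cmul, cval_cI, cval_cconst, e0, e1, e2, e3, e4, e5] <;>
      ring
  simp [ratePoly, MP.eval_add, MP.eval_mul, MP.eval_smul, MP.eval_const, MP.eval_var,
    eval_lift_coord, hR, hT, rate, coord12]
  rw [show MP.eval 10 (fun i => coord i (low b)) (ofList D.p) = polyFun D.p (low b) from rfl,
    show MP.eval 10 (fun i => coord i (low b)) (ofList D.q) = polyFun D.q (low b) from rfl]
  field_simp
  ring

theorem lt_of_check {v : ℕ → ℝ} (hv : ∀ i, |v i| ≤ 1) {p s : R12} {E : ℕ}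
    (hs : 0 ≤ MP.eval 12 v s)
    (h : Nat.blt (MP.l1 12 (MP.add 12 p
      (MP.add 12 (MP.smul (-1) 12 s) (MP.const (-(E : ℤ)) 12)))) E = true) :
    1 ≤ MP.eval 12 v p := by
  have h0 : MP.l1 12 (MP.add 12 p (MP.add 12 (MP.smul (-1) 12 s) (MP.const (-(E : ℤ)) 12))) + 1 ≤
      E := Nat.le_of_ble_eq_true h
  have h1 := (abs_le.1 (MP.abs_eval_le v hv 12
    (MP.add 12 p (MP.add 12 (MP.smul (-1) 12 s) (MP.const (-(E : ℤ)) 12))))).1
  have h2 : (MP.l1 12 (MP.add 12 p (MP.add 12 (MP.smul (-1) 12 s) (MP.const (-(E : ℤ)) 12))) : ℝ) +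
      1 ≤ E := by exact_mod_cast h0
  simp [MP.eval_add, MP.eval_smul, MP.eval_const] at h1
  linarith

/-- A checked certificate is a certificate. -/
theorem cert_of_check (D : Data) (hden : 0 < D.den) (hsr : ∀ B ∈ D.sr, B.Ok)
    (hsp : ∀ B ∈ D.sp, B.Ok) (hr : D.checkRate = true) (hp : D.checkPos = true) :
    Cert (-(D.tn : ℝ) / D.den) ((D.an : ℝ) / D.den) (polyFun D.p) (polyFun D.q) := by
  refine ⟨contDiff_polyFun _, contDiff_polyFun _, 1 / (4 * D.den), by positivity, fun b hb => ?_⟩
  have hd : (1 : ℝ) ≤ D.den := Nat.one_le_cast.2 hden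
  have h1 := lt_of_check (coord12_le hb) (squares_nonneg hb D.sp hsp) hp
  have h2 := lt_of_check (coord12_le hb) (squares_nonneg hb D.sr hsr) hr
  rw [eval_lift_coord] at h1
  rw [eval_ratePoly b D hden] at h2
  refine ⟨le_trans ?_ h1, ?_⟩
  · rw [div_le_one (by positivity)]
    linarith
  · rw [div_le_iff₀ (by positivity)]
    linarith

end Vale.Agent.P142K
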