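import Mathlib
import Vale.Agent.P142J.Jets
import Vale.Agent.P142K.Defs

/-!
# The six jets along circles and rays

`jets f r θ` are the exterior coefficients of the Koebe transform of `f` at `r e^(iθ)`; their
derivatives are polynomial in the jets.
-/

namespace Vale.Agent.P142K

open Complex Metric Set

variable {f : ℂ → ℂ}

theorem point_mem {r : ℝ} (hr : r ∈ Ioo (-1 : ℝ) 1) (θ : ℝ) :
    (r : ℂ) * dir θ ∈ ball (0 : ℂ) 1 :=
  P142J.point_mem hr θ

theorem hasDerivAt_dir (θ : ℝ) : HasDerivAt dir (I * dir θ) θ := P142J.hasDerivAt_dir θ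

theorem jets_zero (r θ : ℝ) : jets f r θ 0 = P142J.jet0 f r θ := by
  simp [jets, shiftB, expB, scaled, acoef, P142J.jet0, P142J.pre, iteratedDeriv_succ,
    iteratedDeriv_zero, dir, P142J.dir, Nat.factorial]
  ring

variable (hf : DifferentiableOn ℂ f (ball 0 1)) (hinj : InjOn f (ball 0 1))
include hf hinj

omit hinj in
theorem differentiableOn_iteratedDeriv (n : ℕ) :
    DifferentiableOn ℂ (iteratedDeriv n f) (ball 0 1) := by
  induction n with
  | zero => simpa using hf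
  | succ n ih => rw [iteratedDeriv_succ]; exact ih.deriv isOpen_ball

omit hinj in
theorem hasDerivAt_iteratedDeriv (n : ℕ) {z : ℂ} (hz : z ∈ ball (0 : ℂ) 1) :
    HasDerivAt (iteratedDeriv n f) (iteratedDeriv (n + 1) f z) z := by
  rw [iteratedDeriv_succ]
  exact ((differentiableOn_iteratedDeriv hf n).differentiableAt
    (isOpen_ball.mem_nhds hz)).hasDerivAt

theorem hasDerivAt_acoef (n : ℕ) {z : ℂ} (hz : z ∈ ball (0 : ℂ) 1) :
    HasDerivAt (acoef f n) ((n + 1) * acoef f (n + 1) z - 2 * acoef f 2 z * acoef f n z) z := by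
  have h1 := hasDerivAt_iteratedDeriv hf n hz
  have h2 := hasDerivAt_iteratedDeriv hf 1 hz
  rw [iteratedDeriv_one] at h2
  have hne := P142J.deriv_ne_zero hf hinj z hz
  have hfac : (n.factorial : ℂ) ≠ 0 := Nat.cast_ne_zero.2 n.factorial_ne_zero
  refine (h1.div (h2.const_mul (n.factorial : ℂ)) (mul_ne_zero hfac hne)).congr_deriv ?_
  simp only [acoef, Nat.factorial_succ]
  push_cast
  field_simp
  ring

theorem continuousOn_acoef (n : ℕ) : ContinuousOn (acoef f n) (ball 0 1) := fun _ hz =>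
  (hasDerivAt_acoef hf hinj n hz).continuousAt.continuousWithinAt

theorem hasDerivAt_scaled_r {r : ℝ} (hr : r ∈ Ioo (-1 : ℝ) 1) (θ : ℝ) (m : ℕ) :
    HasDerivAt (fun s => scaled f s θ (m + 2))
      (((m + 3) * scaled f r θ (m + 3) - 2 * scaled f r θ 2 * scaled f r θ (m + 2) -
        2 * r * (m + 1) * scaled f r θ (m + 2)) / (1 - (r : ℂ) ^ 2)) r := by
  have hu : (1 : ℂ) - (r : ℂ) ^ 2 ≠ 0 := by
    exact_mod_cast (show (1 : ℝ) - r ^ 2 ≠ 0 by nlinarith [hr.1, hr.2])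
  have hs : HasDerivAt (fun s : ℝ => (s : ℂ)) 1 r := (hasDerivAt_id (r : ℂ)).comp_ofReal
  have ha := (hasDerivAt_acoef hf hinj (m + 2) (point_mem hr θ)).comp r (hs.mul_const (dir θ))
  have hue := ((((hs.pow 2).const_sub (1 : ℂ)).mul_const (dir θ)).pow (m + 1))
  simp only [scaled, show m + 2 - 1 = m + 1 from rfl, show m + 3 - 1 = m + 2 from rfl,
    show (2 : ℕ) - 1 = 1 from rfl, ofReal_sub, ofReal_pow, ofReal_one]
  refine (ha.mul hue).congr_deriv ?_
  simp only [Function.comp, Pi.pow_apply, Nat.add_sub_cancel]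
  push_cast
  field_simp
  ring

theorem hasDerivAt_scaled_t {r : ℝ} (hr : r ∈ Ioo (-1 : ℝ) 1) (θ : ℝ) (m : ℕ) :
    HasDerivAt (fun s => scaled f r s (m + 2))
      (I * r * ((m + 3) * scaled f r θ (m + 3) - 2 * scaled f r θ 2 * scaled f r θ (m + 2)) /
        (1 - (r : ℂ) ^ 2) + I * (m + 1) * scaled f r θ (m + 2)) θ := by
  have hu : (1 : ℂ) - (r : ℂ) ^ 2 ≠ 0 := by
    exact_mod_cast (show (1 : ℝ) - r ^ 2 ≠ 0 by nlinarith [hr.1, hr.2])
  have he := hasDerivAt_dir θ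
  have ha := (hasDerivAt_acoef hf hinj (m + 2) (point_mem hr θ)).comp θ (he.const_mul (r : ℂ))
  have hue := ((he.const_mul ((1 : ℂ) - (r : ℂ) ^ 2)).pow (m + 1))
  simp only [scaled, show m + 2 - 1 = m + 1 from rfl, show m + 3 - 1 = m + 2 from rfl,
    show (2 : ℕ) - 1 = 1 from rfl, ofReal_sub, ofReal_pow, ofReal_one]
  refine (ha.mul hue).congr_deriv ?_
  simp only [Function.comp, Pi.pow_apply, Nat.add_sub_cancel]
  push_cast
  field_simp
  ring

theorem hasDerivAt_jet0_r {r : ℝ} (hr : r ∈ Ioo (-1 : ℝ) 1) (θ : ℝ) :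
    HasDerivAt (fun s => jets f s θ 0) ((2 / (1 - (r : ℂ) ^ 2)) * dR (jets f r θ) 0) r := by
  have hu : (1 : ℂ) - (r : ℂ) ^ 2 ≠ 0 := by
    exact_mod_cast (show (1 : ℝ) - r ^ 2 ≠ 0 by nlinarith [hr.1, hr.2])
  have hs : HasDerivAt (fun s : ℝ => (s : ℂ)) 1 r := (hasDerivAt_id (r : ℂ)).comp_ofReal
  have h2 := hasDerivAt_scaled_r hf hinj hr θ 0
  simp [jets, shiftB, expB, dR]
  refine HasDerivAt.congr_deriv (by
    repeat' first
      | exact hs | exact h2
      | exact hasDerivAt_const _ _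
      | apply HasDerivAt.fun_pow | apply HasDerivAt.fun_neg | apply HasDerivAt.fun_add
      | apply HasDerivAt.fun_sub | apply HasDerivAt.fun_mul) ?_
  push_cast
  field_simp
  ring

theorem hasDerivAt_jet1_r {r : ℝ} (hr : r ∈ Ioo (-1 : ℝ) 1) (θ : ℝ) :
    HasDerivAt (fun s => jets f s θ 1) ((2 / (1 - (r : ℂ) ^ 2)) * dR (jets f r θ) 1) r := by
  have hu : (1 : ℂ) - (r : ℂ) ^ 2 ≠ 0 := by
    exact_mod_cast (show (1 : ℝ) - r ^ 2 ≠ 0 by nlinarith [hr.1, hr.2])
  have hs : HasDerivAt (fun s : ℝ => (s : ℂ)) 1 r := (hasDerivAt_id (r : ℂ)).comp_ofReal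
  have h2 := hasDerivAt_scaled_r hf hinj hr θ 0
  have h3 := hasDerivAt_scaled_r hf hinj hr θ 1
  simp [jets, shiftB, expB, dR]
  refine HasDerivAt.congr_deriv (by
    repeat' first
      | exact hs | exact h2 | exact h3
      | exact hasDerivAt_const _ _
      | apply HasDerivAt.fun_pow | apply HasDerivAt.fun_neg | apply HasDerivAt.fun_add
      | apply HasDerivAt.fun_sub | apply HasDerivAt.fun_mul) ?_
  push_cast
  field_simp
  ring

theorem hasDerivAt_jet2_r {r : ℝ} (hr : r ∈ Ioo (-1 : ℝ) 1) (θ : ℝ) :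
    HasDerivAt (fun s => jets f s θ 2) ((2 / (1 - (r : ℂ) ^ 2)) * dR (jets f r θ) 2) r := by
  have hu : (1 : ℂ) - (r : ℂ) ^ 2 ≠ 0 := by
    exact_mod_cast (show (1 : ℝ) - r ^ 2 ≠ 0 by nlinarith [hr.1, hr.2])
  have hs : HasDerivAt (fun s : ℝ => (s : ℂ)) 1 r := (hasDerivAt_id (r : ℂ)).comp_ofReal
  have h2 := hasDerivAt_scaled_r hf hinj hr θ 0
  have h3 := hasDerivAt_scaled_r hf hinj hr θ 1
  have h4 := hasDerivAt_scaled_r hf hinj hr θ 2
  simp [jets, shiftB, expB, dR]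
  refine HasDerivAt.congr_deriv (by
    repeat' first
      | exact hs | exact h2 | exact h3 | exact h4
      | exact hasDerivAt_const _ _
      | apply HasDerivAt.fun_pow | apply HasDerivAt.fun_neg | apply HasDerivAt.fun_add
      | apply HasDerivAt.fun_sub | apply HasDerivAt.fun_mul) ?_
  push_cast
  field_simp
  ring

theorem hasDerivAt_jet3_r {r : ℝ} (hr : r ∈ Ioo (-1 : ℝ) 1) (θ : ℝ) :
    HasDerivAt (fun s => jets f s θ 3) ((2 / (1 - (r : ℂ) ^ 2)) * dR (jets f r θ) 3) r := by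
  have hu : (1 : ℂ) - (r : ℂ) ^ 2 ≠ 0 := by
    exact_mod_cast (show (1 : ℝ) - r ^ 2 ≠ 0 by nlinarith [hr.1, hr.2])
  have hs : HasDerivAt (fun s : ℝ => (s : ℂ)) 1 r := (hasDerivAt_id (r : ℂ)).comp_ofReal
  have h2 := hasDerivAt_scaled_r hf hinj hr θ 0
  have h3 := hasDerivAt_scaled_r hf hinj hr θ 1
  have h4 := hasDerivAt_scaled_r hf hinj hr θ 2
  have h5 := hasDerivAt_scaled_r hf hinj hr θ 3
  simp [jets, shiftB, expB, dR]
  refine HasDerivAt.congr_deriv (by
    repeat' first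
      | exact hs | exact h2 | exact h3 | exact h4 | exact h5
      | exact hasDerivAt_const _ _
      | apply HasDerivAt.fun_pow | apply HasDerivAt.fun_neg | apply HasDerivAt.fun_add
      | apply HasDerivAt.fun_sub | apply HasDerivAt.fun_mul) ?_
  push_cast
  field_simp
  ring

theorem hasDerivAt_jet4_r {r : ℝ} (hr : r ∈ Ioo (-1 : ℝ) 1) (θ : ℝ) :
    HasDerivAt (fun s => jets f s θ 4) ((2 / (1 - (r : ℂ) ^ 2)) * dR (jets f r θ) 4) r := by
  have hu : (1 : ℂ) - (r : ℂ) ^ 2 ≠ 0 := by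
    exact_mod_cast (show (1 : ℝ) - r ^ 2 ≠ 0 by nlinarith [hr.1, hr.2])
  have hs : HasDerivAt (fun s : ℝ => (s : ℂ)) 1 r := (hasDerivAt_id (r : ℂ)).comp_ofReal
  have h2 := hasDerivAt_scaled_r hf hinj hr θ 0
  have h3 := hasDerivAt_scaled_r hf hinj hr θ 1
  have h4 := hasDerivAt_scaled_r hf hinj hr θ 2
  have h5 := hasDerivAt_scaled_r hf hinj hr θ 3
  have h6 := hasDerivAt_scaled_r hf hinj hr θ 4
  simp [jets, shiftB, expB, dR]
  refine HasDerivAt.congr_deriv (by
    repeat' first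
      | exact hs | exact h2 | exact h3 | exact h4 | exact h5 | exact h6
      | exact hasDerivAt_const _ _
      | apply HasDerivAt.fun_pow | apply HasDerivAt.fun_neg | apply HasDerivAt.fun_add
      | apply HasDerivAt.fun_sub | apply HasDerivAt.fun_mul) ?_
  push_cast
  field_simp
  ring

theorem hasDerivAt_low_r {r : ℝ} (hr : r ∈ Ioo (-1 : ℝ) 1) (θ : ℝ) :
    HasDerivAt (fun s => low (jets f s θ)) ((2 / (1 - r ^ 2)) • dR (jets f r θ)) r := by
  refine hasDerivAt_pi.2 fun i => ?_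
  fin_cases i
  · simpa [low, Complex.real_smul] using hasDerivAt_jet0_r hf hinj hr θ
  · simpa [low, Complex.real_smul] using hasDerivAt_jet1_r hf hinj hr θ
  · simpa [low, Complex.real_smul] using hasDerivAt_jet2_r hf hinj hr θ
  · simpa [low, Complex.real_smul] using hasDerivAt_jet3_r hf hinj hr θ
  · simpa [low, Complex.real_smul] using hasDerivAt_jet4_r hf hinj hr θ

theorem hasDerivAt_jet0_t {r : ℝ} (hr : r ∈ Ioo (-1 : ℝ) 1) (θ : ℝ) :
    HasDerivAt (fun s => jets f r s 0) ((2 / (1 - (r : ℂ) ^ 2)) * dT r (jets f r θ) 0) θ := by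
  have hu : (1 : ℂ) - (r : ℂ) ^ 2 ≠ 0 := by
    exact_mod_cast (show (1 : ℝ) - r ^ 2 ≠ 0 by nlinarith [hr.1, hr.2])
  have h2 := hasDerivAt_scaled_t hf hinj hr θ 0
  simp [jets, shiftB, expB, dT]
  refine HasDerivAt.congr_deriv (by
    repeat' first
      | exact h2
      | exact hasDerivAt_const _ _
      | apply HasDerivAt.fun_pow | apply HasDerivAt.fun_neg | apply HasDerivAt.fun_add
      | apply HasDerivAt.fun_sub | apply HasDerivAt.fun_mul) ?_
  push_cast
  field_simp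
  ring

theorem hasDerivAt_jet1_t {r : ℝ} (hr : r ∈ Ioo (-1 : ℝ) 1) (θ : ℝ) :
    HasDerivAt (fun s => jets f r s 1) ((2 / (1 - (r : ℂ) ^ 2)) * dT r (jets f r θ) 1) θ := by
  have hu : (1 : ℂ) - (r : ℂ) ^ 2 ≠ 0 := by
    exact_mod_cast (show (1 : ℝ) - r ^ 2 ≠ 0 by nlinarith [hr.1, hr.2])
  have h2 := hasDerivAt_scaled_t hf hinj hr θ 0
  have h3 := hasDerivAt_scaled_t hf hinj hr θ 1
  simp [jets, shiftB, expB, dT]
  refine HasDerivAt.congr_deriv (by
    repeat' first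
      | exact h2 | exact h3
      | exact hasDerivAt_const _ _
      | apply HasDerivAt.fun_pow | apply HasDerivAt.fun_neg | apply HasDerivAt.fun_add
      | apply HasDerivAt.fun_sub | apply HasDerivAt.fun_mul) ?_
  push_cast
  field_simp
  ring

theorem hasDerivAt_jet2_t {r : ℝ} (hr : r ∈ Ioo (-1 : ℝ) 1) (θ : ℝ) :
    HasDerivAt (fun s => jets f r s 2) ((2 / (1 - (r : ℂ) ^ 2)) * dT r (jets f r θ) 2) θ := by
  have hu : (1 : ℂ) - (r : ℂ) ^ 2 ≠ 0 := by
    exact_mod_cast (show (1 : ℝ) - r ^ 2 ≠ 0 by nlinarith [hr.1, hr.2])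
  have h2 := hasDerivAt_scaled_t hf hinj hr θ 0
  have h3 := hasDerivAt_scaled_t hf hinj hr θ 1
  have h4 := hasDerivAt_scaled_t hf hinj hr θ 2
  simp [jets, shiftB, expB, dT]
  refine HasDerivAt.congr_deriv (by
    repeat' first
      | exact h2 | exact h3 | exact h4
      | exact hasDerivAt_const _ _
      | apply HasDerivAt.fun_pow | apply HasDerivAt.fun_neg | apply HasDerivAt.fun_add
      | apply HasDerivAt.fun_sub | apply HasDerivAt.fun_mul) ?_
  push_cast
  field_simp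
  ring

theorem hasDerivAt_jet3_t {r : ℝ} (hr : r ∈ Ioo (-1 : ℝ) 1) (θ : ℝ) :
    HasDerivAt (fun s => jets f r s 3) ((2 / (1 - (r : ℂ) ^ 2)) * dT r (jets f r θ) 3) θ := by
  have hu : (1 : ℂ) - (r : ℂ) ^ 2 ≠ 0 := by
    exact_mod_cast (show (1 : ℝ) - r ^ 2 ≠ 0 by nlinarith [hr.1, hr.2])
  have h2 := hasDerivAt_scaled_t hf hinj hr θ 0
  have h3 := hasDerivAt_scaled_t hf hinj hr θ 1
  have h4 := hasDerivAt_scaled_t hf hinj hr θ 2
  have h5 := hasDerivAt_scaled_t hf hinj hr θ 3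
  simp [jets, shiftB, expB, dT]
  refine HasDerivAt.congr_deriv (by
    repeat' first
      | exact h2 | exact h3 | exact h4 | exact h5
      | exact hasDerivAt_const _ _
      | apply HasDerivAt.fun_pow | apply HasDerivAt.fun_neg | apply HasDerivAt.fun_add
      | apply HasDerivAt.fun_sub | apply HasDerivAt.fun_mul) ?_
  push_cast
  field_simp
  ring

theorem hasDerivAt_jet4_t {r : ℝ} (hr : r ∈ Ioo (-1 : ℝ) 1) (θ : ℝ) :
    HasDerivAt (fun s => jets f r s 4) ((2 / (1 - (r : ℂ) ^ 2)) * dT r (jets f r θ) 4) θ := by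
  have hu : (1 : ℂ) - (r : ℂ) ^ 2 ≠ 0 := by
    exact_mod_cast (show (1 : ℝ) - r ^ 2 ≠ 0 by nlinarith [hr.1, hr.2])
  have h2 := hasDerivAt_scaled_t hf hinj hr θ 0
  have h3 := hasDerivAt_scaled_t hf hinj hr θ 1
  have h4 := hasDerivAt_scaled_t hf hinj hr θ 2
  have h5 := hasDerivAt_scaled_t hf hinj hr θ 3
  have h6 := hasDerivAt_scaled_t hf hinj hr θ 4
  simp [jets, shiftB, expB, dT]
  refine HasDerivAt.congr_deriv (by
    repeat' first
      | exact h2 | exact h3 | exact h4 | exact h5 | exact h6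
      | exact hasDerivAt_const _ _
      | apply HasDerivAt.fun_pow | apply HasDerivAt.fun_neg | apply HasDerivAt.fun_add
      | apply HasDerivAt.fun_sub | apply HasDerivAt.fun_mul) ?_
  push_cast
  field_simp
  ring

theorem hasDerivAt_low_t {r : ℝ} (hr : r ∈ Ioo (-1 : ℝ) 1) (θ : ℝ) :
    HasDerivAt (fun s => low (jets f r s)) ((2 / (1 - r ^ 2)) • dT r (jets f r θ)) θ := by
  refine hasDerivAt_pi.2 fun i => ?_
  fin_cases i
  · simpa [low, Complex.real_smul] using hasDerivAt_jet0_t hf hinj hr θ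
  · simpa [low, Complex.real_smul] using hasDerivAt_jet1_t hf hinj hr θ
  · simpa [low, Complex.real_smul] using hasDerivAt_jet2_t hf hinj hr θ
  · simpa [low, Complex.real_smul] using hasDerivAt_jet3_t hf hinj hr θ
  · simpa [low, Complex.real_smul] using hasDerivAt_jet4_t hf hinj hr θ

theorem continuousOn_jets :
    ContinuousOn (fun p : ℝ × ℝ => jets f p.1 p.2) (Ioo (-1 : ℝ) 1 ×ˢ univ) := by
  have hdir : Continuous dir := (Complex.continuous_ofReal.mul continuous_const).cexp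
  have hA : ∀ n, ContinuousOn (fun p : ℝ × ℝ => scaled f p.1 p.2 n) (Ioo (-1 : ℝ) 1 ×ˢ univ) :=
    fun n => by
      have hpt : Continuous fun p : ℝ × ℝ => (p.1 : ℂ) * dir p.2 := by fun_prop
      have h := (continuousOn_acoef hf hinj n).comp hpt.continuousOn
        fun (p : ℝ × ℝ) (hp : p ∈ Ioo (-1 : ℝ) 1 ×ˢ (univ : Set ℝ)) => point_mem hp.1 p.2
      exact h.mul (by fun_prop)
  have := hA 2; have := hA 3; have := hA 4; have := hA 5; have := hA 6; have := hA 7
  refine continuousOn_pi.2 fun i => ?_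
  fin_cases i <;> simp [jets, shiftB, expB] <;> fun_prop

omit hf hinj in
theorem jets_periodic (r θ : ℝ) : jets f r (θ + 2 * Real.pi) = jets f r θ := by
  have h : dir (θ + 2 * Real.pi) = dir θ := by
    simp [dir, add_mul, Complex.exp_add, Complex.exp_two_pi_mul_I]
  simp only [jets]
  congr 2
  funext n
  simp [scaled, h]

end Vale.Agent.P142K
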