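import Mathlib
import Vale.Agent.P142K.Body
import Vale.Agent.P142K.Jets

/-!
# The jets are in the body

The exterior coefficients of `f ∘ mob` are the shifted ones of the scaled Taylor coefficients.
-/

namespace Vale.Agent.P142K

open Complex Metric Set
open Vale.Agent.P142J (mob mob_den mob_mem hasDerivAt_mob mob_inj)

variable {f : ℂ → ℂ} (hf : DifferentiableOn ℂ f (ball 0 1)) (hinj : InjOn f (ball 0 1))
include hf hinj

theorem body_jets {r : ℝ} (hr : r ∈ Ico (0 : ℝ) 1) (θ : ℝ) : Body (jets f r θ) := by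
  have hr' : |r| < 1 := abs_lt.2 ⟨by linarith [hr.1], hr.2⟩
  have he : ‖dir θ‖ = 1 := norm_exp_ofReal_mul_I θ
  set c : ℂ := (((1 - r ^ 2 : ℝ)) : ℂ) * dir θ with hc
  set s : ℂ := -(r : ℂ) with hs
  set g : ℂ → ℂ := fun w => f (mob (dir θ) r w)
  have hgd : DifferentiableOn ℂ g (ball 0 1) := hf.comp
    (fun w hw => (hasDerivAt_mob _ hr' hw).differentiableAt.differentiableWithinAt)
    fun w hw => mob_mem he hr' hw
  have hgi : InjOn g (ball 0 1) := hinj.comp (mob_inj he hr') fun w hw => mob_mem he hr' hw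
  set q : ℂ → ℂ := fun w => (1 + r * w)⁻¹
  set T : ℕ → ℕ → ℂ → ℂ := fun k m w => iteratedDeriv k f (mob (dir θ) r w) * q w ^ m with hTdef
  have hT : ∀ k m : ℕ, ∀ w ∈ ball (0 : ℂ) 1,
      HasDerivAt (T k m) (c * T (k + 1) (m + 2) w + m * s * T k (m + 1) w) w := by
    intro k m w hw
    have hq : HasDerivAt q (s * q w ^ 2) w := by
      refine ((((hasDerivAt_id w).const_mul (r : ℂ)).const_add 1).inv (mob_den hr' hw)).congr_deriv ?_
      simp only [q, hs, id, mul_one, inv_pow]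
      ring
    refine (((hasDerivAt_iteratedDeriv hf k (mob_mem he hr' hw)).comp w
      (hasDerivAt_mob _ hr' hw)).mul (hq.pow m)).congr_deriv ?_
    simp only [hTdef, hc, q, Function.comp, Pi.pow_apply]
    rcases m with - | m
    · simp; ring
    · simp only [Nat.add_sub_cancel]; push_cast; ring
  have step : ∀ {n : ℕ} {H G' : ℂ → ℂ}, EqOn (iteratedDeriv n g) H (ball 0 1) →
      (∀ w ∈ ball (0 : ℂ) 1, HasDerivAt H (G' w) w) →
      EqOn (iteratedDeriv (n + 1) g) G' (ball 0 1) := fun hGH hH w hw => by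
    rw [iteratedDeriv_succ]
    exact ((hH w hw).congr_of_eventuallyEq
      (hGH.eventuallyEq_of_mem (isOpen_ball.mem_nhds hw))).deriv
  have e1 : EqOn (iteratedDeriv 1 g) (fun w => 1 * (c ^ 1 * s ^ 0 * T 1 2 w)) (ball 0 1) := by
    refine step (n := 0) (H := T 0 0) (fun w _ => by simp [g, T]) fun w hw => ?_
    exact (hT 0 0 w hw).congr_deriv (by simp)
  have e2 : EqOn (iteratedDeriv 2 g) (fun w =>
      2 * (c ^ 1 * s ^ 1 * T 1 3 w) + 1 * (c ^ 2 * s ^ 0 * T 2 4 w)) (ball 0 1) := by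
    refine step e1 fun w hw => ?_
    exact (((hT 1 2 w hw).const_mul (c ^ 1 * s ^ 0)).const_mul (1 : ℂ)).congr_deriv
      (by push_cast; ring)
  have e3 : EqOn (iteratedDeriv 3 g) (fun w =>
      6 * (c ^ 1 * s ^ 2 * T 1 4 w) + 6 * (c ^ 2 * s ^ 1 * T 2 5 w) +
        1 * (c ^ 3 * s ^ 0 * T 3 6 w)) (ball 0 1) := by
    refine step e2 fun w hw => ?_
    exact ((((hT 1 3 w hw).const_mul (c ^ 1 * s ^ 1)).const_mul (2 : ℂ)).fun_add
      (((hT 2 4 w hw).const_mul (c ^ 2 * s ^ 0)).const_mul (1 : ℂ))).congr_deriv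
      (by push_cast; ring)
  have e4 : EqOn (iteratedDeriv 4 g) (fun w =>
      24 * (c ^ 1 * s ^ 3 * T 1 5 w) + 36 * (c ^ 2 * s ^ 2 * T 2 6 w) +
        12 * (c ^ 3 * s ^ 1 * T 3 7 w) + 1 * (c ^ 4 * s ^ 0 * T 4 8 w)) (ball 0 1) := by
    refine step e3 fun w hw => ?_
    exact (((((hT 1 4 w hw).const_mul (c ^ 1 * s ^ 2)).const_mul (6 : ℂ)).fun_add
      (((hT 2 5 w hw).const_mul (c ^ 2 * s ^ 1)).const_mul (6 : ℂ))).fun_add
      (((hT 3 6 w hw).const_mul (c ^ 3 * s ^ 0)).const_mul (1 : ℂ))).congr_deriv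
      (by push_cast; ring)
  have e5 : EqOn (iteratedDeriv 5 g) (fun w =>
      120 * (c ^ 1 * s ^ 4 * T 1 6 w) + 240 * (c ^ 2 * s ^ 3 * T 2 7 w) +
        120 * (c ^ 3 * s ^ 2 * T 3 8 w) + 20 * (c ^ 4 * s ^ 1 * T 4 9 w) +
        1 * (c ^ 5 * s ^ 0 * T 5 10 w)) (ball 0 1) := by
    refine step e4 fun w hw => ?_
    exact ((((((hT 1 5 w hw).const_mul (c ^ 1 * s ^ 3)).const_mul (24 : ℂ)).fun_add
      (((hT 2 6 w hw).const_mul (c ^ 2 * s ^ 2)).const_mul (36 : ℂ))).fun_add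
      (((hT 3 7 w hw).const_mul (c ^ 3 * s ^ 1)).const_mul (12 : ℂ))).fun_add
      (((hT 4 8 w hw).const_mul (c ^ 4 * s ^ 0)).const_mul (1 : ℂ))).congr_deriv
      (by push_cast; ring)
  have e6 : EqOn (iteratedDeriv 6 g) (fun w =>
      720 * (c ^ 1 * s ^ 5 * T 1 7 w) + 1800 * (c ^ 2 * s ^ 4 * T 2 8 w) +
        1200 * (c ^ 3 * s ^ 3 * T 3 9 w) + 300 * (c ^ 4 * s ^ 2 * T 4 10 w) +
        30 * (c ^ 5 * s ^ 1 * T 5 11 w) + 1 * (c ^ 6 * s ^ 0 * T 6 12 w)) (ball 0 1) := by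
    refine step e5 fun w hw => ?_
    exact (((((((hT 1 6 w hw).const_mul (c ^ 1 * s ^ 4)).const_mul (120 : ℂ)).fun_add
      (((hT 2 7 w hw).const_mul (c ^ 2 * s ^ 3)).const_mul (240 : ℂ))).fun_add
      (((hT 3 8 w hw).const_mul (c ^ 3 * s ^ 2)).const_mul (120 : ℂ))).fun_add
      (((hT 4 9 w hw).const_mul (c ^ 4 * s ^ 1)).const_mul (20 : ℂ))).fun_add
      (((hT 5 10 w hw).const_mul (c ^ 5 * s ^ 0)).const_mul (1 : ℂ))).congr_deriv
      (by push_cast; ring)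
  have e7 : EqOn (iteratedDeriv 7 g) (fun w =>
      5040 * (c ^ 1 * s ^ 6 * T 1 8 w) + 15120 * (c ^ 2 * s ^ 5 * T 2 9 w) +
        12600 * (c ^ 3 * s ^ 4 * T 3 10 w) + 4200 * (c ^ 4 * s ^ 3 * T 4 11 w) +
        630 * (c ^ 5 * s ^ 2 * T 5 12 w) + 42 * (c ^ 6 * s ^ 1 * T 6 13 w) +
        1 * (c ^ 7 * s ^ 0 * T 7 14 w)) (ball 0 1) := by
    refine step e6 fun w hw => ?_
    exact ((((((((hT 1 7 w hw).const_mul (c ^ 1 * s ^ 5)).const_mul (720 : ℂ)).fun_add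
      (((hT 2 8 w hw).const_mul (c ^ 2 * s ^ 4)).const_mul (1800 : ℂ))).fun_add
      (((hT 3 9 w hw).const_mul (c ^ 3 * s ^ 3)).const_mul (1200 : ℂ))).fun_add
      (((hT 4 10 w hw).const_mul (c ^ 4 * s ^ 2)).const_mul (300 : ℂ))).fun_add
      (((hT 5 11 w hw).const_mul (c ^ 5 * s ^ 1)).const_mul (30 : ℂ))).fun_add
      (((hT 6 12 w hw).const_mul (c ^ 6 * s ^ 0)).const_mul (1 : ℂ))).congr_deriv
      (by push_cast; ring)
  have h0 : (0 : ℂ) ∈ ball (0 : ℂ) 1 := mem_ball_self one_pos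
  set A := scaled f r θ with hA
  have hφ0 : mob (dir θ) r 0 = r * dir θ := by simp [mob, mul_comm]
  have hc0 : c ≠ 0 := by
    refine mul_ne_zero ?_ (Complex.exp_ne_zero _)
    exact_mod_cast (show (1 : ℝ) - r ^ 2 ≠ 0 by nlinarith [hr.1, hr.2])
  have hd : deriv f (r * dir θ) ≠ 0 :=
    P142J.deriv_ne_zero hf hinj _ (hφ0 ▸ mob_mem he hr' h0)
  have hT0 : ∀ k m : ℕ, T k m 0 = iteratedDeriv k f (r * dir θ) := fun k m => by
    simp [hTdef, q, hφ0]
  have g1v : deriv g 0 = c * deriv f (r * dir θ) := by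
    have := e1 h0
    simp only [iteratedDeriv_one] at this
    simp [this, hT0, iteratedDeriv_one]
  have a2 : acoef g 2 0 = s ^ 1 + 1 * s ^ 0 * A 2 := by
    simp only [hA, scaled, acoef, g1v, ← hc, e2 h0, hT0, iteratedDeriv_one,
      Nat.factorial]
    field_simp
    push_cast
    ring
  have a3 : acoef g 3 0 = s ^ 2 + 2 * s ^ 1 * A 2 + 1 * s ^ 0 * A 3 := by
    simp only [hA, scaled, acoef, g1v, ← hc, e3 h0, hT0, iteratedDeriv_one,
      Nat.factorial]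
    field_simp
    push_cast
    ring
  have a4 : acoef g 4 0 = s ^ 3 + 3 * s ^ 2 * A 2 + 3 * s ^ 1 * A 3 + 1 * s ^ 0 * A 4 := by
    simp only [hA, scaled, acoef, g1v, ← hc, e4 h0, hT0, iteratedDeriv_one,
      Nat.factorial]
    field_simp
    push_cast
    ring
  have a5 : acoef g 5 0 = s ^ 4 + 4 * s ^ 3 * A 2 + 6 * s ^ 2 * A 3 + 4 * s ^ 1 * A 4 + 1 * s ^ 0 * A 5 := by
    simp only [hA, scaled, acoef, g1v, ← hc, e5 h0, hT0, iteratedDeriv_one,
      Nat.factorial]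
    field_simp
    push_cast
    ring
  have a6 : acoef g 6 0 = s ^ 5 + 5 * s ^ 4 * A 2 + 10 * s ^ 3 * A 3 + 10 * s ^ 2 * A 4 + 5 * s ^ 1 * A 5 + 1 * s ^ 0 * A 6 := by
    simp only [hA, scaled, acoef, g1v, ← hc, e6 h0, hT0, iteratedDeriv_one,
      Nat.factorial]
    field_simp
    push_cast
    ring
  have a7 : acoef g 7 0 = s ^ 6 + 6 * s ^ 5 * A 2 + 15 * s ^ 4 * A 3 + 20 * s ^ 3 * A 4 + 15 * s ^ 2 * A 5 + 6 * s ^ 1 * A 6 + 1 * s ^ 0 * A 7 := by
    simp only [hA, scaled, acoef, g1v, ← hc, e7 h0, hT0, iteratedDeriv_one,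
      Nat.factorial]
    field_simp
    push_cast
    ring
  have h := body_expB hgd hgi
  have e : (expB fun n => acoef g n 0) = jets f r θ := by
    funext i
    fin_cases i <;> simp [jets, ← hA, expB, shiftB, a2, a3, a4, a5, a6, a7, hs] <;> ring
  rwa [e] at h

end Vale.Agent.P142K
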