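import Mathlib
import Vale.Agent.P142.Area
import Vale.Agent.P142J.Mean
import Vale.Agent.P142K.Jets
import Vale.Agent.P142K.Koebe

/-!
# From a certificate to integral means and area integrals

With `K = 2 / (1 - r^2)` the radial derivative of the mean of `P ‖f'‖^t` is `K α` times the mean
minus `K` times the mean of the defect, up to an exact angular derivative, and the defect is
nonnegative near the boundary.
-/

namespace Vale.Agent.P142K

open Complex Metric Set MeasureTheory Filter Topology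
open scoped Real ENNReal

variable {t α : ℝ} {P Q : St → ℝ}

lemma isCompact_body : IsCompact {b : Fin 6 → ℂ | Body b} := by
  refine IsCompact.of_isClosed_subset (isCompact_closedBall (0 : Fin 6 → ℂ) 2) ?_ ?_
  · have he : {b : Fin 6 → ℂ | Body b} = {b | ‖b 1‖ ^ 2 + 2 * ‖b 2‖ ^ 2 + 3 * ‖b 3‖ ^ 2 +
        4 * ‖b 4‖ ^ 2 + 5 * ‖b 5‖ ^ 2 ≤ 1} ∩ {b | ‖b 0‖ ≤ 2} ∩
        ⋂ (v1 : ℂ) (v2 : ℂ) (v3 : ℂ),
          {b | ‖gform b v1 v2 v3‖ ≤ ‖v1‖ ^ 2 + ‖v2‖ ^ 2 / 2 + ‖v3‖ ^ 2 / 3} := by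
      ext b
      simp only [mem_inter_iff, mem_iInter, mem_ofPred_eq]
      exact ⟨fun h => ⟨⟨h.area, h.disc⟩, h.grunsky⟩, fun h => ⟨h.1.1, h.1.2, h.2⟩⟩
    rw [he]
    refine ((isClosed_le (by fun_prop) continuous_const).inter
      (isClosed_le (by fun_prop) continuous_const)).inter
      (isClosed_iInter fun v1 => isClosed_iInter fun v2 => isClosed_iInter fun v3 =>
        isClosed_le ?_ continuous_const)
    unfold gform
    fun_prop
  · intro b hb
    rw [mem_closedBall_zero_iff, pi_norm_le_iff_of_nonneg zero_le_two]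
    have h := hb.area
    have k1 := sq_nonneg ‖b 1‖; have k2 := sq_nonneg ‖b 2‖; have k3 := sq_nonneg ‖b 3‖
    have k4 := sq_nonneg ‖b 4‖; have k5 := sq_nonneg ‖b 5‖
    intro i
    fin_cases i
    · exact hb.disc
    all_goals simp only [Fin.reduceFinMk, Fin.isValue] <;> nlinarith [norm_nonneg (b 1),
      norm_nonneg (b 2), norm_nonneg (b 3), norm_nonneg (b 4), norm_nonneg (b 5)]

lemma continuous_rate (hP : ContDiff ℝ 1 P) (hQ : ContDiff ℝ 1 Q) :
    Continuous fun x : ℝ × (Fin 6 → ℂ) => rate t α P Q x.1 x.2 := by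
  have hp : Continuous fun x : ℝ × (Fin 6 → ℂ) => low x.2 :=
    continuous_pi fun i => (continuous_apply i.castSucc).comp continuous_snd
  have dP := ((hP.continuous_fderiv one_ne_zero).comp hp).clm_apply (g := fun x => dR x.2)
    (continuous_pi fun i => by fin_cases i <;> simp [dR] <;> fun_prop)
  have dQ := ((hQ.continuous_fderiv one_ne_zero).comp hp).clm_apply (g := fun x => dT x.1 x.2)
    (continuous_pi fun i => by fin_cases i <;> simp [dT] <;> fun_prop)
  simp only [Function.comp_def] at dP dQ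
  have cP : Continuous fun x : ℝ × (Fin 6 → ℂ) => P (low x.2) := hP.continuous.comp hp
  have cQ : Continuous fun x : ℝ × (Fin 6 → ℂ) => Q (low x.2) := hQ.continuous.comp hp
  unfold rate
  fun_prop

/-- The defect is nonnegative on the body near the boundary of the disc. -/
lemma rate_nonneg_near (h : Cert t α P Q) :
    ∃ r0 : ℝ, 0 ≤ r0 ∧ r0 < 1 ∧ ∀ r ∈ Icc r0 1, ∀ b, Body b → 0 ≤ rate t α P Q r b := by
  obtain ⟨hP, hQ, ε, hε, hb⟩ := h
  have hev : ∀ᶠ r in 𝓝 (1 : ℝ), ∀ b ∈ {b : Fin 6 → ℂ | Body b},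
      0 < rate t α P Q r b := by
    refine isCompact_body.eventually_forall_of_forall_eventually fun b hbm => ?_
    exact (continuous_rate hP hQ).continuousAt.eventually_const_lt
      (hε.trans_le (hb b hbm).2)
  obtain ⟨δ, hδ, hδb⟩ := Metric.eventually_nhds_iff.1 hev
  refine ⟨max (1 - δ / 2) 0, le_max_right _ _, max_lt (by linarith) one_pos,
    fun r hr b hB => (hδb ?_ b hB).le⟩
  rw [Real.dist_eq, abs_lt]
  have := (le_max_left (1 - δ / 2) 0).trans hr.1
  constructor <;> linarith [hr.2]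

/-- The mean of `P ‖f'‖^t` satisfies the growth inequality near the boundary. -/
lemma mean_growth (hP : ContDiff ℝ 1 P) (hQ : ContDiff ℝ 1 Q) {ε r0 : ℝ}
    (hb : ∀ b, Body b → ε ≤ P (low b)) (hr00 : 0 ≤ r0)
    (hrate : ∀ r ∈ Icc r0 1, ∀ b, Body b → 0 ≤ rate t α P Q r b)
    {f : ℂ → ℂ} (hf : DifferentiableOn ℂ f (ball 0 1)) (hinj : InjOn f (ball 0 1)) :
    ∃ m m' : ℝ → ℝ, (∀ r ∈ Ioo (-1 : ℝ) 1, HasDerivAt m (m' r) r) ∧
      (∀ r ∈ Ico r0 1, m' r ≤ 2 / (1 - r ^ 2) * α * m r) ∧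
      ∀ r ∈ Ico (0 : ℝ) 1, ε * ∫ θ in (-π)..π, ‖deriv f (P142.pt r θ)‖ ^ t ≤ m r := by
  set j : ℝ → ℝ → St := fun r θ => low (jets f r θ)
  set w : ℝ → ℝ → ℝ := fun r θ => ‖deriv f (P142.pt r θ)‖ ^ t with hw
  set G : ℝ → ℝ → ℝ := fun r θ => P (j r θ) * w r θ
  set G' : ℝ → ℝ → ℝ := fun r θ => 2 / (1 - r ^ 2) *
    ((fderiv ℝ P (j r θ) (dR (jets f r θ)) +
      t * (r - (jets f r θ 0).re) * P (j r θ)) * w r θ)
  set H' : ℝ → ℝ → ℝ := fun r θ => 2 / (1 - r ^ 2) *
    ((fderiv ℝ Q (j r θ) (dT r (jets f r θ)) +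
      t * r * (jets f r θ 0).im * Q (j r θ)) * w r θ)
  set S : Set (ℝ × ℝ) := Ioo (-1 : ℝ) 1 ×ˢ univ
  have hJ := continuousOn_jets hf hinj
  have hj : ContinuousOn (fun p : ℝ × ℝ => j p.1 p.2) S :=
    continuousOn_pi.2 fun i => continuousOn_pi.1 hJ i.castSucc
  have hwc : ContinuousOn (fun p : ℝ × ℝ => w p.1 p.2) S :=
    (P142.continuousOn_pt (hf.deriv isOpen_ball).continuousOn).norm.rpow_const fun p hp =>
      Or.inl (norm_ne_zero_iff.2 (P142J.deriv_ne_zero hf hinj _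
        (P142.pt_mem (abs_lt.2 ⟨hp.1.1, hp.1.2⟩) p.2)))
  have hGc : ContinuousOn (fun p : ℝ × ℝ => G p.1 p.2) S :=
    (hP.continuous.comp_continuousOn hj).mul hwc
  have hK : ContinuousOn (fun p : ℝ × ℝ => 2 / (1 - p.1 ^ 2)) S :=
    continuousOn_const.div (by fun_prop) fun p hp => by
      obtain ⟨a, b⟩ := hp.1
      have : 0 < 1 - p.1 ^ 2 := by nlinarith
      exact this.ne'
  have c0 : ContinuousOn (fun p : ℝ × ℝ => jets f p.1 p.2 0) S := continuousOn_pi.1 hJ 0
  have hdR : ContinuousOn (fun p : ℝ × ℝ =>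
      dR (jets f p.1 p.2)) S := by
    have hc : Continuous fun x : Fin 6 → ℂ => dR x :=
      continuous_pi fun i => by fin_cases i <;> simp [dR] <;> fun_prop
    have := Continuous.comp_continuousOn hc hJ
    simp only [Function.comp_def] at this
    exact this
  have hdT : ContinuousOn (fun p : ℝ × ℝ =>
      dT p.1 (jets f p.1 p.2)) S := by
    have hc : Continuous fun x : ℝ × (Fin 6 → ℂ) => dT x.1 x.2 :=
      continuous_pi fun i => by fin_cases i <;> simp [dT] <;> fun_prop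
    have := Continuous.comp_continuousOn hc
      ((continuousOn_fst : ContinuousOn (Prod.fst : ℝ × ℝ → ℝ) S).prodMk hJ)
    simp only [Function.comp_def] at this
    exact this
  have hG'c : ContinuousOn (fun p : ℝ × ℝ => G' p.1 p.2) S :=
    hK.mul (((((hP.continuous_fderiv one_ne_zero).comp_continuousOn hj).clm_apply hdR).add
      ((continuousOn_const.mul (continuousOn_fst.sub (continuous_re.comp_continuousOn c0))).mul
        (hP.continuous.comp_continuousOn hj))).mul hwc)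
  have hH'c : ContinuousOn (fun p : ℝ × ℝ => H' p.1 p.2) S :=
    hK.mul (((((hQ.continuous_fderiv one_ne_zero).comp_continuousOn hj).clm_apply hdT).add
      (((continuousOn_const.mul continuousOn_fst).mul (continuous_im.comp_continuousOn c0)).mul
        (hQ.continuous.comp_continuousOn hj))).mul hwc)
  have slice : ∀ {F : ℝ → ℝ → ℝ}, ContinuousOn (fun p : ℝ × ℝ => F p.1 p.2) S →
      ∀ r ∈ Ioo (-1 : ℝ) 1, Continuous (F r) := fun hF r hr =>
    hF.comp_continuous (continuous_const.prodMk continuous_id) fun θ => ⟨hr, mem_univ _⟩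
  set m : ℝ → ℝ := fun r => ∫ θ in (-π)..π, G r θ
  set m' : ℝ → ℝ := fun r => ∫ θ in (-π)..π, G' r θ
  have hGd : ∀ r ∈ Ioo (-1 : ℝ) 1, ∀ θ, HasDerivAt (fun s => G s θ) (G' r θ) r := fun r hr θ => by
    have d1 : HasDerivAt (fun x => low (jets f x θ))
        ((2 / (1 - r ^ 2)) • dR (jets f r θ)) r :=
      hasDerivAt_low_r hf hinj hr θ
    have d2 : HasFDerivAt P (fderiv ℝ P (low (jets f r θ)))
        (low (jets f r θ)) :=
      ((hP.differentiable one_ne_zero) _).hasFDerivAt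
    have d3 : HasDerivAt (fun x => P (low (jets f x θ)))
        (fderiv ℝ P (low (jets f r θ))
          ((2 / (1 - r ^ 2)) • dR (jets f r θ))) r :=
      HasFDerivAt.comp_hasDerivAt (f := fun x => low (jets f x θ)) r d2 d1
    have d4 := d3.mul (P142J.hasDerivAt_weight_r hf hinj t hr θ)
    rw [map_smul, smul_eq_mul] at d4
    refine d4.congr_deriv ?_
    simp only [G', j, w, jets_zero]
    ring
  have hm : ∀ r ∈ Ioo (-1 : ℝ) 1, HasDerivAt m (m' r) r := fun r hr =>
    P142.hasDerivAt_integral_param hGc hG'c hGd hr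
  have hH0 : ∀ r ∈ Ioo (-1 : ℝ) 1, ∫ θ in (-π)..π, H' r θ = 0 := fun r hr => by
    have hd : ∀ θ, HasDerivAt (fun s => Q (j r s) * w r s) (H' r θ) θ := fun θ => by
      have d1 : HasDerivAt (fun x => low (jets f r x))
          ((2 / (1 - r ^ 2)) • dT r (jets f r θ)) θ :=
        hasDerivAt_low_t hf hinj hr θ
      have d2 : HasFDerivAt Q (fderiv ℝ Q (low (jets f r θ)))
          (low (jets f r θ)) :=
        ((hQ.differentiable one_ne_zero) _).hasFDerivAt
      have d3 : HasDerivAt (fun x => Q (low (jets f r x)))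
          (fderiv ℝ Q (low (jets f r θ))
            ((2 / (1 - r ^ 2)) • dT r (jets f r θ))) θ :=
        HasFDerivAt.comp_hasDerivAt (f := fun x => low (jets f r x)) θ d2 d1
      have d4 := d3.mul (P142J.hasDerivAt_weight_t hf hinj t hr θ)
      rw [map_smul, smul_eq_mul] at d4
      refine d4.congr_deriv ?_
      simp only [H', j, w, jets_zero]
      ring
    rw [intervalIntegral.integral_eq_sub_of_hasDerivAt (fun θ _ => hd θ)
      ((slice hH'c r hr).intervalIntegrable _ _), sub_eq_zero]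
    have e := jets_periodic (f := f) r (-π)
    rw [show -π + 2 * π = π by ring] at e
    simp only [j, w, e, P142.pt_periodic]
  -- the differential inequality
  have hineq : ∀ r ∈ Ico r0 1, m' r ≤ 2 / (1 - r ^ 2) * α * m r := fun r hr => by
    have hr' : r ∈ Ioo (-1 : ℝ) 1 := ⟨by linarith [hr.1], hr.2⟩
    have hK0 : 0 ≤ 2 / (1 - r ^ 2) := div_nonneg zero_le_two (by nlinarith [hr'.1, hr'.2])
    have hsum : m' r = ∫ θ in (-π)..π, (G' r θ + H' r θ) := by
      rw [intervalIntegral.integral_add ((slice hG'c r hr').intervalIntegrable _ _)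
        ((slice hH'c r hr').intervalIntegrable _ _), hH0 r hr', add_zero]
    rw [hsum, ← intervalIntegral.integral_const_mul]
    refine intervalIntegral.integral_mono_on (by linarith [Real.pi_pos])
      (((slice hG'c r hr').add (slice hH'c r hr')).intervalIntegrable _ _)
      (((slice hGc r hr').const_mul _).intervalIntegrable _ _) fun θ _ => ?_
    have hB := body_jets hf hinj ⟨hr00.trans hr.1, hr.2⟩ θ
    have := mul_nonneg hK0 (mul_nonneg (hrate r ⟨hr.1, hr.2.le⟩ _ hB)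
      (Real.rpow_nonneg (norm_nonneg (deriv f (P142.pt r θ))) t))
    simp only [rate] at this
    simp only [G', H', G, j, w]
    linear_combination this
  have hwle : ∀ r ∈ Ico (0 : ℝ) 1, ε * ∫ θ in (-π)..π, w r θ ≤ m r := fun r hr => by
    have hr' : r ∈ Ioo (-1 : ℝ) 1 := ⟨by linarith [hr.1], hr.2⟩
    rw [← intervalIntegral.integral_const_mul]
    exact intervalIntegral.integral_mono_on (by linarith [Real.pi_pos])
      (((slice hwc r hr').const_mul _).intervalIntegrable _ _)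
      ((slice hGc r hr').intervalIntegrable _ _) fun θ _ =>
        mul_le_mul_of_nonneg_right (hb _ (body_jets hf hinj hr θ))
          (Real.rpow_nonneg (norm_nonneg _) _)
  exact ⟨m, m', hm, hineq, hwle⟩

theorem integral_mean_bound (h : Cert t α P Q) {f : ℂ → ℂ}
    (hf : DifferentiableOn ℂ f (ball 0 1)) (hinj : InjOn f (ball 0 1)) :
    ∃ C : ℝ, ∀ r ∈ Ico (0 : ℝ) 1,
      ∫ θ in (-π)..π, ‖deriv f (P142.pt r θ)‖ ^ t ≤ C * (1 - r) ^ (-α) := by
  obtain ⟨r0, hr00, hr01, hrate⟩ := rate_nonneg_near h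
  obtain ⟨hP, hQ, ε, hε, hb⟩ := h
  obtain ⟨m, m', hm, hineq, hwle⟩ := mean_growth hP hQ (fun b hB => (hb b hB).1)
    hr00 hrate hf hinj
  obtain ⟨C, hC⟩ := P142J.growth_bound hr00 hr01 hm hineq fun r hr =>
    le_trans (mul_nonneg hε.le (intervalIntegral.integral_nonneg (by linarith [Real.pi_pos])
      fun θ _ => Real.rpow_nonneg (norm_nonneg _) _)) (hwle r hr)
  refine ⟨C / ε, fun r hr => ?_⟩
  have p1 : 0 < 1 - r := by linarith [hr.2]
  have hpow : 0 < (1 - r) ^ α := Real.rpow_pos_of_pos p1 α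
  rw [Real.rpow_neg p1.le, ← div_eq_mul_inv, le_div_iff₀ hpow, le_div_iff₀ hε]
  calc (∫ θ in (-π)..π, ‖deriv f (P142.pt r θ)‖ ^ t) * (1 - r) ^ α * ε =
        ε * (∫ θ in (-π)..π, ‖deriv f (P142.pt r θ)‖ ^ t) * (1 - r) ^ α := by ring
    _ ≤ m r * (1 - r) ^ α := mul_le_mul_of_nonneg_right (hwle r hr) hpow.le
    _ ≤ C := hC r hr

/-- The distortion bound, from `‖b 0‖ ≤ 2`. -/
theorem norm_deriv_ge {f : ℂ → ℂ} (hf : DifferentiableOn ℂ f (ball 0 1))
    (hinj : InjOn f (ball 0 1)) {r : ℝ} (hr : r ∈ Ico (0 : ℝ) 1) (θ : ℝ) :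
    ‖deriv f 0‖ / 8 * (1 - r) ≤ ‖deriv f (P142.pt r θ)‖ := by
  set ψ : ℝ → ℝ := fun s => ‖deriv f (P142.pt s θ)‖ ^ (-1 : ℝ) * ((1 - s) / (1 + s) ^ 3) with hψ
  have hd : ∀ s ∈ Ico (0 : ℝ) 1, ∃ v ≤ 0, HasDerivAt ψ v s := fun s hs => by
    have hs' : s ∈ Ioo (-1 : ℝ) 1 := ⟨by linarith [hs.1], hs.2⟩
    have p1 : 0 < 1 - s := by linarith [hs.2]
    have p2 : 0 < 1 + s := by linarith [hs.1]
    have hw := P142J.hasDerivAt_weight_r hf hinj (-1) hs' θ
    rw [← jets_zero] at hw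
    have hq : HasDerivAt (fun x => (1 - x) / (1 + x) ^ 3)
        ((-1 * (1 + s) ^ 3 - (1 - s) * (3 * (1 + s) ^ 2)) / ((1 + s) ^ 3) ^ 2) s := by
      refine (((hasDerivAt_id s).const_sub 1).div (((hasDerivAt_id s).const_add 1).pow 3)
        (pow_pos p2 3).ne').congr_deriv ?_
      simp
    refine ⟨_, ?_, hw.mul hq⟩
    have hre : (jets f s θ 0).re ≤ 2 :=
      (Complex.re_le_norm _).trans (body_jets hf hinj hs θ).disc
    have hw0 : 0 ≤ ‖deriv f (P142.pt s θ)‖ ^ (-1 : ℝ) := Real.rpow_nonneg (norm_nonneg _) _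
    have e : 2 / (1 - s ^ 2) * (-1 * (s - (jets f s θ 0).re)) *
          ‖deriv f (P142.pt s θ)‖ ^ (-1 : ℝ) * ((1 - s) / (1 + s) ^ 3) +
        ‖deriv f (P142.pt s θ)‖ ^ (-1 : ℝ) *
          ((-1 * (1 + s) ^ 3 - (1 - s) * (3 * (1 + s) ^ 2)) / ((1 + s) ^ 3) ^ 2) =
        2 * ((jets f s θ 0).re - 2) / (1 + s) ^ 4 * ‖deriv f (P142.pt s θ)‖ ^ (-1 : ℝ) := by
      rw [show 1 - s ^ 2 = (1 - s) * (1 + s) by ring]
      field_simp
      ring
    rw [e]
    exact mul_nonpos_of_nonpos_of_nonneg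
      (div_nonpos_of_nonpos_of_nonneg (by linarith) (by positivity)) hw0
  have hdiff : ∀ s ∈ Ico (0 : ℝ) 1, DifferentiableAt ℝ ψ s := fun s hs => by
    obtain ⟨v, -, h⟩ := hd s hs
    exact h.differentiableAt
  have hanti : AntitoneOn ψ (Ico 0 1) := antitoneOn_of_deriv_nonpos (convex_Ico 0 1)
    (fun s hs => (hdiff s hs).continuousAt.continuousWithinAt)
    (fun s hs => (hdiff s (interior_subset hs)).differentiableWithinAt) fun s hs => by
      obtain ⟨v, hv, h⟩ := hd s (interior_subset hs)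
      rw [h.deriv]
      exact hv
  have h1 := hanti ⟨le_rfl, zero_lt_one⟩ hr hr.1
  have hp : 0 < ‖deriv f (P142.pt r θ)‖ := norm_pos_iff.2 (P142J.deriv_ne_zero hf hinj _
    (P142.pt_mem (abs_lt.2 ⟨by linarith [hr.1], hr.2⟩) θ))
  have h0 : 0 < ‖deriv f 0‖ :=
    norm_pos_iff.2 (P142J.deriv_ne_zero hf hinj 0 (mem_ball_self one_pos))
  have h3 : (1 + r) ^ 3 ≤ 8 := by nlinarith [hr.1, hr.2, mul_nonneg hr.1 hr.1]
  have hr3 : 0 < (1 + r) ^ 3 := pow_pos (by linarith [hr.1]) 3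
  simp only [hψ, P142.pt, ofReal_zero, zero_mul, sub_zero, add_zero, one_pow, div_one, mul_one,
    Real.rpow_neg_one] at h1
  simp only [P142.pt] at hp
  rw [← one_div, ← one_div, div_mul_div_comm, one_mul,
    div_le_div_iff₀ (mul_pos hp hr3) h0] at h1
  calc ‖deriv f 0‖ / 8 * (1 - r) = (1 - r) * ‖deriv f 0‖ / 8 := by ring
    _ ≤ 1 * (‖deriv f (P142.pt r θ)‖ * (1 + r) ^ 3) / 8 :=
      div_le_div_of_nonneg_right (by simp only [P142.pt]; linarith) (by norm_num)
    _ ≤ _ := by simp only [P142.pt]; nlinarith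

/-- The mean bound moves to smaller exponents at unit cost. -/
theorem integral_mean_bound_below (h : Cert t α P Q) {f : ℂ → ℂ}
    (hf : DifferentiableOn ℂ f (ball 0 1)) (hinj : InjOn f (ball 0 1)) {s : ℝ} (hs : s ≤ t) :
    ∃ C : ℝ, ∀ r ∈ Ico (0 : ℝ) 1,
      ∫ θ in (-π)..π, ‖deriv f (P142.pt r θ)‖ ^ s ≤ C * (1 - r) ^ (-(α + (t - s))) := by
  obtain ⟨C, hC⟩ := integral_mean_bound h hf hinj
  set c : ℝ := ‖deriv f 0‖ / 8
  have hc : 0 < c :=
    div_pos (norm_pos_iff.2 (P142J.deriv_ne_zero hf hinj 0 (mem_ball_self one_pos))) (by norm_num)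
  refine ⟨c ^ (-(t - s)) * C, fun r hr => ?_⟩
  have p1 : 0 < 1 - r := by linarith [hr.2]
  have hr' : |r| < 1 := abs_lt.2 ⟨by linarith [hr.1], hr.2⟩
  have hpos : ∀ θ, 0 < ‖deriv f (P142.pt r θ)‖ := fun θ =>
    norm_pos_iff.2 (P142J.deriv_ne_zero hf hinj _ (P142.pt_mem hr' θ))
  have hcont : Continuous fun θ => ‖deriv f (P142.pt r θ)‖ :=
    ((P142.continuousOn_pt (hf.deriv isOpen_ball).continuousOn).norm).comp_continuous
      (continuous_const.prodMk continuous_id) fun θ => ⟨⟨by linarith [hr.1], hr.2⟩, mem_univ _⟩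
  calc ∫ θ in (-π)..π, ‖deriv f (P142.pt r θ)‖ ^ s
      ≤ ∫ θ in (-π)..π, (c * (1 - r)) ^ (-(t - s)) * ‖deriv f (P142.pt r θ)‖ ^ t := by
        refine intervalIntegral.integral_mono_on (by linarith [Real.pi_pos])
          ((hcont.rpow_const fun θ => Or.inl (hpos θ).ne').intervalIntegrable _ _)
          ((continuous_const.mul
            (hcont.rpow_const fun θ => Or.inl (hpos θ).ne')).intervalIntegrable _ _)
          fun θ _ => ?_
        conv_lhs => rw [show s = -(t - s) + t by ring, Real.rpow_add (hpos θ)]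
        exact mul_le_mul_of_nonneg_right (Real.rpow_le_rpow_of_nonpos (mul_pos hc p1)
          (norm_deriv_ge hf hinj hr θ) (by linarith)) (Real.rpow_nonneg (norm_nonneg _) _)
    _ ≤ (c * (1 - r)) ^ (-(t - s)) * (C * (1 - r) ^ (-α)) := by
        rw [intervalIntegral.integral_const_mul]
        exact mul_le_mul_of_nonneg_left (hC r hr) (Real.rpow_nonneg (mul_pos hc p1).le _)
    _ = _ := by
        rw [Real.mul_rpow hc.le p1.le, show -(α + (t - s)) = -(t - s) + -α by ring,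
          Real.rpow_add p1]
        ring

theorem integrable_powers (h : Cert t α P Q) (hα : α < 1) {f : ℂ → ℂ}
    (hf : DifferentiableOn ℂ f (ball 0 1)) (hinj : InjOn f (ball 0 1)) {s : ℝ}
    (hs : s ∈ Icc t 0) :
    ∫⁻ z in ball (0 : ℂ) 1, ENNReal.ofReal (‖deriv f z‖ ^ s) < ⊤ := by
  obtain ⟨C, hC⟩ := integral_mean_bound h hf hinj
  have hne : ∀ z ∈ ball (0 : ℂ) 1, deriv f z ≠ 0 := fun z hz => P142J.deriv_ne_zero hf hinj z hz
  set g : ℂ → ℂ := fun z => ((‖deriv f z‖ ^ (t / 2) : ℝ) : ℂ)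
  have hg : ContinuousOn g P142.disc :=
    continuous_ofReal.comp_continuousOn
      ((hf.deriv isOpen_ball).continuousOn.norm.rpow_const fun z hz =>
        Or.inl (norm_ne_zero_iff.2 (hne z hz)))
  have hsq : ∀ z, ‖g z‖ ^ 2 = ‖deriv f z‖ ^ t := fun z => by
    rw [Complex.norm_real, Real.norm_of_nonneg (Real.rpow_nonneg (norm_nonneg _) _),
      ← Real.rpow_two, ← Real.rpow_mul (norm_nonneg _), div_mul_cancel₀ t two_ne_zero]
  have h2 := P142.lintegral_disc_lt_top hg hα (D := C) fun r hr => by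
    simpa only [P142.J, hsq] using hC r hr
  simp only [hsq, P142.disc] at h2
  refine (setLIntegral_mono' measurableSet_ball
    (g := fun z => 1 + ENNReal.ofReal (‖deriv f z‖ ^ t)) fun z hz => ?_).trans_lt ?_
  · have hp : 0 < ‖deriv f z‖ := norm_pos_iff.2 (hne z hz)
    have h0 : 0 ≤ ‖deriv f z‖ ^ t := Real.rpow_nonneg hp.le t
    rw [← ENNReal.ofReal_one, ← ENNReal.ofReal_add zero_le_one h0]
    refine ENNReal.ofReal_le_ofReal ?_
    rcases le_or_gt 1 ‖deriv f z‖ with h' | h'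
    · linarith [Real.rpow_le_one_of_one_le_of_nonpos h' hs.2]
    · linarith [Real.rpow_le_rpow_of_exponent_ge hp h'.le hs.1]
  · rw [lintegral_add_left measurable_const, setLIntegral_const, one_mul]
    exact ENNReal.add_lt_top.2 ⟨measure_ball_lt_top, h2⟩

theorem integrable_inverse (h : Cert t α P Q) (hα : α < 1) {f φ : ℂ → ℂ}
    (hf : DifferentiableOn ℂ f (ball 0 1)) (hφ : ∀ z ∈ ball (0 : ℂ) 1, φ (f z) = z) {s : ℝ}
    (hs : s ∈ Icc 2 (2 - t)) :
    ∫⁻ w in f '' ball 0 1, ENNReal.ofReal (‖deriv φ w‖ ^ s) < ⊤ := by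
  have hinj : InjOn f (ball 0 1) := fun x hx y hy h => by rw [← hφ x hx, ← hφ y hy, h]
  have hd : ∀ z ∈ ball (0 : ℂ) 1, HasDerivAt f (deriv f z) z := fun z hz =>
    (hf.differentiableAt (isOpen_ball.mem_nhds hz)).hasDerivAt
  rw [lintegral_image_eq_lintegral_abs_det_fderiv_mul volume measurableSet_ball
    (fun z hz => ((hd z hz).hasFDerivAt.restrictScalars ℝ).hasFDerivWithinAt) hinj]
  refine lt_of_eq_of_lt (setLIntegral_congr_fun measurableSet_ball fun z hz => ?_)
    (integrable_powers h hα hf hinj (s := 2 - s) ⟨by linarith [hs.2], by linarith [hs.1]⟩)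
  have hst : HasStrictDerivAt f (deriv f z) z :=
    ((hf.analyticAt (isOpen_ball.mem_nhds hz)).hasStrictFDerivAt).hasStrictDerivAt
  have hinv := (hst.to_local_left_inverse (P142J.deriv_ne_zero hf hinj z hz)
    (Filter.eventually_of_mem (isOpen_ball.mem_nhds hz) hφ)).hasDerivAt
  have hp : 0 < ‖deriv f z‖ := norm_pos_iff.2 (P142J.deriv_ne_zero hf hinj z hz)
  rw [hinv.deriv, P142.abs_det_smulRight, ← ENNReal.ofReal_mul (sq_nonneg _), norm_inv,
    Real.inv_rpow hp.le, Real.rpow_sub hp, Real.rpow_two, div_eq_mul_inv]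

/-- A certificate bounds the area integrals of every conformal map onto the disc. -/
theorem integrable_riemann (h : Cert t α P Q) (hα : α < 1) {U : Set ℂ} {φ : ℂ → ℂ}
    (hU : IsOpen U) (hφ : DifferentiableOn ℂ φ U) (hb : BijOn φ U (ball 0 1)) {s : ℝ}
    (hs : s ∈ Icc 2 (2 - t)) :
    ∫⁻ w in U, ENNReal.ofReal (‖deriv φ w‖ ^ s) < ⊤ := by
  set f := Function.invFunOn φ U
  have hleft : ∀ w ∈ U, f (φ w) = w := fun w hw => hb.injOn.leftInvOn_invFunOn hw
  have hright : ∀ z ∈ ball (0 : ℂ) 1, φ (f z) = z := fun z hz =>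
    Function.invFunOn_eq (hb.surjOn hz)
  have hd : DifferentiableOn ℂ f (ball 0 1) := fun z hz => by
    obtain ⟨w, hw, rfl⟩ := hb.surjOn hz
    have hst : HasStrictDerivAt φ (deriv φ w) w :=
      ((hφ.analyticAt (hU.mem_nhds hw)).hasStrictFDerivAt).hasStrictDerivAt
    exact (hst.to_local_left_inverse (P142J.deriv_ne_zero_of_injOn hU hφ hb.injOn hw)
      (Filter.eventually_of_mem (hU.mem_nhds hw) hleft)).hasDerivAt.differentiableAt.differentiableWithinAt
  have himg : f '' ball 0 1 = U := by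
    ext w
    refine ⟨?_, fun hw => ⟨φ w, hb.mapsTo hw, hleft w hw⟩⟩
    rintro ⟨z, hz, rfl⟩
    exact Function.invFunOn_mem (hb.surjOn hz)
  rw [← himg]
  exact integrable_inverse h hα hd hright hs

end Vale.Agent.P142K
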